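import Vale.Agent.P354H.Defs
import Vale.Agent.P354.H251.DefsN2

open scoped ContDiff
open Set

namespace Vale.Agent.P354C

open Vale.Agent.P354n (R4)

/-- The 38 unknowns. Coordinates p = (tau, x, y1, y2), u = tau - x, v = tau + x. Frame
e0 = l = d_tau + d_x + b^A d_A, e1 = n = d_tau - d_x, e2, e3 = P_a^A d_A; g(l,n) = -2 O^2,
g(e_a,e_b) = O^2 delta. Connection: D l = 2 fp l + 2 alpha^a e_a, D n = 2 fm n + 2 beta^a e_a,
D e_a = (fp + fm) e_a + r (rotation) + beta^a l + alpha^a n, with the values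
fp = (om, 0, p1, p2), fm = (0, omb, q1, q2), r = (r0, 0, r1, r2), alpha^a = (0, Aa, Xa1, Xa2),
beta^a = (Ba, 0, Ya1, Ya2) on the frame. The last ten are the Weyl curvature: Psi0 = (a1, a2),
Psi1 = (be1, be2), Psi2 = (rho, sig), Psi3 = (bb1, bb2), Psi4 = (ab1, ab2). -/
inductive Ix
  | O | b1 | b2 | P11 | P12 | P21 | P22
  | om | p1 | p2 | omb | q1 | q2 | r0 | r1 | r2
  | A1 | A2 | X11 | X12 | X21 | X22 | B1 | B2 | Y11 | Y12 | Y21 | Y22
  | a1 | a2 | be1 | be2 | rho | sig | bb1 | bb2 | ab1 | ab2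
  deriving DecidableEq

open Ix

/-- The list of all unknowns. -/
def Ix.all : List Ix :=
  [O, b1, b2, P11, P12, P21, P22, om, p1, p2, omb, q1, q2, r0, r1, r2,
    A1, A2, X11, X12, X21, X22, B1, B2, Y11, Y12, Y21, Y22,
    a1, a2, be1, be2, rho, sig, bb1, bb2, ab1, ab2]

instance : Fintype Ix := Fintype.ofList Ix.all (by intro x; cases x <;> decide)

/-- Twice the bidegree (degree in l, degree in n). -/
def deg : Ix → ℕ × ℕ
  | .b1 => (2, 0)
  | .b2 => (2, 0)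
  | .om => (2, 0)
  | .omb => (0, 2)
  | .r0 => (2, 0)
  | .X11 => (2, 0)
  | .X12 => (2, 0)
  | .X21 => (2, 0)
  | .X22 => (2, 0)
  | .Y11 => (0, 2)
  | .Y12 => (0, 2)
  | .Y21 => (0, 2)
  | .Y22 => (0, 2)
  | .a1 => (4, 0)
  | .a2 => (4, 0)
  | .be1 => (3, 1)
  | .be2 => (3, 1)
  | .rho => (2, 2)
  | .sig => (2, 2)
  | .bb1 => (1, 3)
  | .bb2 => (1, 3)
  | .ab1 => (0, 4)
  | .ab2 => (0, 4)
  | _ => (1, 1)

/-- Coefficient of n U_i in the n-equation of i (0: there is no such equation). -/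
def cN : Ix → ℤ
  | .O => 1
  | .b1 => 1
  | .b2 => 1
  | .P11 => 1
  | .P12 => 1
  | .P21 => 1
  | .P22 => 1
  | .om => 1
  | .p1 => 1
  | .p2 => 1
  | .r0 => 1
  | .r1 => 1
  | .r2 => 1
  | .B1 => 1
  | .B2 => 1
  | .Y11 => 1
  | .Y12 => 1
  | .Y21 => 1
  | .Y22 => 1
  | .a1 => 1
  | .a2 => 1
  | .be1 => 1
  | .be2 => 1
  | .rho => 1
  | .sig => 1
  | .bb1 => 1
  | .bb2 => 1
  | _ => 0

/-- Angular terms c * e_(a+2) U_j of the n-equation. -/
def angN : Ix → List (ℤ × Fin 2 × Ix)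
  | .a1 => [(-1, 0, .be1), (1, 1, .be2)]
  | .a2 => [(-1, 0, .be2), (-1, 1, .be1)]
  | .be1 => [(-1, 0, .rho), (1, 1, .sig)]
  | .be2 => [(-1, 0, .sig), (-1, 1, .rho)]
  | .rho => [(1, 0, .bb1), (1, 1, .bb2)]
  | .sig => [(-1, 0, .bb2), (1, 1, .bb1)]
  | .bb1 => [(1, 0, .ab1), (1, 1, .ab2)]
  | .bb2 => [(1, 0, .ab2), (-1, 1, .ab1)]
  | _ => []

/-- Linear terms c * U_j of the n-equation. -/
def linN : Ix → List (ℤ × Ix)
  | .om => [(2, .rho)]
  | .p1 => [(-1, .bb1)]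
  | .p2 => [(-1, .bb2)]
  | .r0 => [(-4, .sig)]
  | .r1 => [(-2, .bb2)]
  | .r2 => [(2, .bb1)]
  | .B1 => [(-2, .bb1)]
  | .B2 => [(-2, .bb2)]
  | .Y11 => [(1, .ab1)]
  | .Y12 => [(1, .ab2)]
  | .Y21 => [(1, .ab2)]
  | .Y22 => [(-1, .ab1)]
  | _ => []

/-- Quadratic terms c * U_j * U_k of the n-equation. -/
def quadN : Ix → List (ℤ × Ix × Ix)
  | .O => [(-1, .O, .omb)]
  | .b1 => [(-2, .A1, .P11), (-2, .A2, .P21), (2, .B1, .P11), (2, .B2, .P21)]
  | .b2 => [(-2, .A1, .P12), (-2, .A2, .P22), (2, .B1, .P12), (2, .B2, .P22)]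
  | .P11 => [(2, .P11, .Y11), (-1, .P11, .omb), (2, .P21, .Y21)]
  | .P12 => [(2, .P12, .Y11), (-1, .P12, .omb), (2, .P22, .Y21)]
  | .P21 => [(2, .P11, .Y12), (2, .P21, .Y22), (-1, .P21, .omb)]
  | .P22 => [(2, .P12, .Y12), (2, .P22, .Y22), (-1, .P22, .omb)]
  | .om => [(-1, .A1, .B1), (-2, .A1, .p1), (-1, .A2, .B2), (-2, .A2, .p2), (2, .B1, .p1),
      (2, .B2, .p2)]
  | .p1 => [(-1, .A1, .Y11), (-1, .A2, .Y21), (2, .Y11, .p1), (2, .Y21, .p2), (-1, .omb, .p1)]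
  | .p2 => [(-1, .A1, .Y12), (-1, .A2, .Y22), (2, .Y12, .p1), (2, .Y22, .p2), (-1, .omb, .p2)]
  | .r0 => [(-2, .A1, .B2), (-2, .A1, .r1), (2, .A2, .B1), (-2, .A2, .r2), (2, .B1, .r1),
      (2, .B2, .r2)]
  | .r1 => [(-2, .A1, .Y21), (2, .A2, .Y11), (2, .Y11, .r1), (2, .Y21, .r2), (-1, .omb, .r1)]
  | .r2 => [(-2, .A1, .Y22), (2, .A2, .Y12), (2, .Y12, .r1), (2, .Y22, .r2), (-1, .omb, .r2)]
  | .B1 => [(-2, .A1, .Y11), (-2, .A2, .Y12), (2, .B1, .Y11), (-1, .B1, .omb), (2, .B2, .Y12)]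
  | .B2 => [(-2, .A1, .Y21), (-2, .A2, .Y22), (2, .B1, .Y21), (2, .B2, .Y22), (-1, .B2, .omb)]
  | .Y11 => [(2, .Y11, .Y11), (-2, .Y11, .omb), (2, .Y12, .Y21)]
  | .Y12 => [(2, .Y11, .Y12), (2, .Y12, .Y22), (-2, .Y12, .omb)]
  | .Y21 => [(2, .Y11, .Y21), (2, .Y21, .Y22), (-2, .Y21, .omb)]
  | .Y22 => [(2, .Y12, .Y21), (2, .Y22, .Y22), (-2, .Y22, .omb)]
  | .a1 => [(-4, .A1, .be1), (4, .A2, .be2), (3, .X11, .rho), (-3, .X12, .sig), (-3, .X21, .sig),
      (-3, .X22, .rho), (1, .Y11, .a1), (-1, .Y12, .a2), (1, .Y21, .a2), (1, .Y22, .a1),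
      (3, .be1, .p1), (1, .be1, .q1), (1, .be1, .r2), (-3, .be2, .p2), (-1, .be2, .q2),
      (1, .be2, .r1)]
  | .a2 => [(-4, .A1, .be2), (-4, .A2, .be1), (3, .X11, .sig), (3, .X12, .rho), (3, .X21, .rho),
      (-3, .X22, .sig), (1, .Y11, .a2), (1, .Y12, .a1), (-1, .Y21, .a1), (1, .Y22, .a2),
      (3, .be1, .p2), (1, .be1, .q2), (-1, .be1, .r1), (3, .be2, .p1), (1, .be2, .q1),
      (1, .be2, .r2)]
  | .be1 => [(-3, .A1, .rho), (3, .A2, .sig), (-2, .X11, .bb1), (-2, .X12, .bb2),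
      (-2, .X21, .bb2), (2, .X22, .bb1), (2, .Y11, .be1), (-2, .Y12, .be2), (2, .Y21, .be2),
      (2, .Y22, .be1), (-1, .be1, .omb), (2, .p1, .rho), (-2, .p2, .sig), (2, .q1, .rho),
      (-2, .q2, .sig)]
  | .be2 => [(-3, .A1, .sig), (-3, .A2, .rho), (2, .X11, .bb2), (-2, .X12, .bb1),
      (-2, .X21, .bb1), (-2, .X22, .bb2), (2, .Y11, .be2), (2, .Y12, .be1), (-2, .Y21, .be1),
      (2, .Y22, .be2), (-1, .be2, .omb), (2, .p1, .sig), (2, .p2, .rho), (2, .q1, .sig),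
      (2, .q2, .rho)]
  | .rho => [(2, .A1, .bb1), (2, .A2, .bb2), (1, .X11, .ab1), (1, .X12, .ab2), (1, .X21, .ab2),
      (-1, .X22, .ab1), (3, .Y11, .rho), (-3, .Y12, .sig), (3, .Y21, .sig), (3, .Y22, .rho),
      (-1, .bb1, .p1), (-3, .bb1, .q1), (1, .bb1, .r2), (-1, .bb2, .p2), (-3, .bb2, .q2),
      (-1, .bb2, .r1), (-2, .omb, .rho)]
  | .sig => [(-2, .A1, .bb2), (2, .A2, .bb1), (-1, .X11, .ab2), (1, .X12, .ab1), (1, .X21, .ab1),
      (1, .X22, .ab2), (3, .Y11, .sig), (3, .Y12, .rho), (-3, .Y21, .rho), (3, .Y22, .sig),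
      (-1, .bb1, .p2), (-3, .bb1, .q2), (-1, .bb1, .r1), (1, .bb2, .p1), (3, .bb2, .q1),
      (-1, .bb2, .r2), (-2, .omb, .sig)]
  | .bb1 => [(1, .A1, .ab1), (1, .A2, .ab2), (4, .Y11, .bb1), (4, .Y12, .bb2), (-4, .Y21, .bb2),
      (4, .Y22, .bb1), (-4, .ab1, .q1), (2, .ab1, .r2), (-4, .ab2, .q2), (-2, .ab2, .r1),
      (-3, .bb1, .omb)]
  | .bb2 => [(1, .A1, .ab2), (-1, .A2, .ab1), (4, .Y11, .bb2), (-4, .Y12, .bb1), (4, .Y21, .bb1),
      (4, .Y22, .bb2), (4, .ab1, .q2), (2, .ab1, .r1), (-4, .ab2, .q1), (2, .ab2, .r2),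
      (-3, .bb2, .omb)]
  | _ => []

/-- Coefficient of l U_i in the l-equation of i (0: there is no such equation). -/
def cL : Ix → ℤ
  | .omb => 1
  | .q1 => 1
  | .q2 => 1
  | .A1 => 1
  | .A2 => 1
  | .X11 => 1
  | .X12 => 1
  | .X21 => 1
  | .X22 => 1
  | .be1 => 1
  | .be2 => 1
  | .rho => 1
  | .sig => 1
  | .bb1 => 1
  | .bb2 => 1
  | .ab1 => 1
  | .ab2 => 1
  | _ => 0

/-- Angular terms c * e_(a+2) U_j of the l-equation. -/
def angL : Ix → List (ℤ × Fin 2 × Ix)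
  | .be1 => [(-1, 0, .a1), (-1, 1, .a2)]
  | .be2 => [(-1, 0, .a2), (1, 1, .a1)]
  | .rho => [(-1, 0, .be1), (-1, 1, .be2)]
  | .sig => [(-1, 0, .be2), (1, 1, .be1)]
  | .bb1 => [(1, 0, .rho), (1, 1, .sig)]
  | .bb2 => [(-1, 0, .sig), (1, 1, .rho)]
  | .ab1 => [(1, 0, .bb1), (-1, 1, .bb2)]
  | .ab2 => [(1, 0, .bb2), (1, 1, .bb1)]
  | _ => []

/-- Linear terms c * U_j of the l-equation. -/
def linL : Ix → List (ℤ × Ix)
  | .omb => [(2, .rho)]
  | .q1 => [(1, .be1)]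
  | .q2 => [(1, .be2)]
  | .A1 => [(2, .be1)]
  | .A2 => [(2, .be2)]
  | .X11 => [(1, .a1)]
  | .X12 => [(1, .a2)]
  | .X21 => [(1, .a2)]
  | .X22 => [(-1, .a1)]
  | _ => []

/-- Quadratic terms c * U_j * U_k of the l-equation. -/
def quadL : Ix → List (ℤ × Ix × Ix)
  | .omb => [(-1, .A1, .B1), (2, .A1, .q1), (-1, .A2, .B2), (2, .A2, .q2), (-2, .B1, .q1),
      (-2, .B2, .q2)]
  | .q1 => [(-1, .B1, .X11), (-1, .B2, .X21), (2, .X11, .q1), (2, .X21, .q2), (-1, .om, .q1),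
      (-1, .q2, .r0)]
  | .q2 => [(-1, .B1, .X12), (-1, .B2, .X22), (2, .X12, .q1), (2, .X22, .q2), (-1, .om, .q2),
      (1, .q1, .r0)]
  | .A1 => [(2, .A1, .X11), (-1, .A1, .om), (2, .A2, .X12), (-1, .A2, .r0), (-2, .B1, .X11),
      (-2, .B2, .X12)]
  | .A2 => [(2, .A1, .X21), (1, .A1, .r0), (2, .A2, .X22), (-1, .A2, .om), (-2, .B1, .X21),
      (-2, .B2, .X22)]
  | .X11 => [(2, .X11, .X11), (-2, .X11, .om), (2, .X12, .X21), (-1, .X12, .r0), (-1, .X21, .r0)]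
  | .X12 => [(2, .X11, .X12), (1, .X11, .r0), (2, .X12, .X22), (-2, .X12, .om), (-1, .X22, .r0)]
  | .X21 => [(2, .X11, .X21), (1, .X11, .r0), (2, .X21, .X22), (-2, .X21, .om), (-1, .X22, .r0)]
  | .X22 => [(2, .X12, .X21), (1, .X12, .r0), (1, .X21, .r0), (2, .X22, .X22), (-2, .X22, .om)]
  | .be1 => [(-1, .B1, .a1), (-1, .B2, .a2), (4, .X11, .be1), (4, .X12, .be2), (-4, .X21, .be2),
      (4, .X22, .be1), (4, .a1, .p1), (-2, .a1, .r2), (4, .a2, .p2), (2, .a2, .r1),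
      (-3, .be1, .om), (-1, .be2, .r0)]
  | .be2 => [(-1, .B1, .a2), (1, .B2, .a1), (4, .X11, .be2), (-4, .X12, .be1), (4, .X21, .be1),
      (4, .X22, .be2), (-4, .a1, .p2), (-2, .a1, .r1), (4, .a2, .p1), (-2, .a2, .r2),
      (1, .be1, .r0), (-3, .be2, .om)]
  | .rho => [(-2, .B1, .be1), (-2, .B2, .be2), (3, .X11, .rho), (3, .X12, .sig),
      (-3, .X21, .sig), (3, .X22, .rho), (1, .Y11, .a1), (1, .Y12, .a2), (1, .Y21, .a2),
      (-1, .Y22, .a1), (3, .be1, .p1), (1, .be1, .q1), (-1, .be1, .r2), (3, .be2, .p2),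
      (1, .be2, .q2), (1, .be2, .r1), (-2, .om, .rho)]
  | .sig => [(-2, .B1, .be2), (2, .B2, .be1), (3, .X11, .sig), (-3, .X12, .rho), (3, .X21, .rho),
      (3, .X22, .sig), (1, .Y11, .a2), (-1, .Y12, .a1), (-1, .Y21, .a1), (-1, .Y22, .a2),
      (-3, .be1, .p2), (-1, .be1, .q2), (-1, .be1, .r1), (3, .be2, .p1), (1, .be2, .q1),
      (-1, .be2, .r2), (-2, .om, .sig)]
  | .bb1 => [(3, .B1, .rho), (3, .B2, .sig), (2, .X11, .bb1), (-2, .X12, .bb2), (2, .X21, .bb2),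
      (2, .X22, .bb1), (-2, .Y11, .be1), (-2, .Y12, .be2), (-2, .Y21, .be2), (2, .Y22, .be1),
      (-1, .bb1, .om), (-1, .bb2, .r0), (-2, .p1, .rho), (-2, .p2, .sig), (-2, .q1, .rho),
      (-2, .q2, .sig)]
  | .bb2 => [(-3, .B1, .sig), (3, .B2, .rho), (2, .X11, .bb2), (2, .X12, .bb1), (-2, .X21, .bb1),
      (2, .X22, .bb2), (2, .Y11, .be2), (-2, .Y12, .be1), (-2, .Y21, .be1), (-2, .Y22, .be2),
      (1, .bb1, .r0), (-1, .bb2, .om), (2, .p1, .sig), (-2, .p2, .rho), (2, .q1, .sig),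
      (-2, .q2, .rho)]
  | .ab1 => [(4, .B1, .bb1), (-4, .B2, .bb2), (1, .X11, .ab1), (-1, .X12, .ab2), (1, .X21, .ab2),
      (1, .X22, .ab1), (3, .Y11, .rho), (3, .Y12, .sig), (3, .Y21, .sig), (-3, .Y22, .rho),
      (-2, .ab2, .r0), (-1, .bb1, .p1), (-3, .bb1, .q1), (-1, .bb1, .r2), (1, .bb2, .p2),
      (3, .bb2, .q2), (-1, .bb2, .r1)]
  | .ab2 => [(4, .B1, .bb2), (4, .B2, .bb1), (1, .X11, .ab2), (1, .X12, .ab1), (-1, .X21, .ab1),
      (1, .X22, .ab2), (-3, .Y11, .sig), (3, .Y12, .rho), (3, .Y21, .rho), (3, .Y22, .sig),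
      (2, .ab1, .r0), (-1, .bb1, .p2), (-3, .bb1, .q2), (1, .bb1, .r1), (-1, .bb2, .p1),
      (-3, .bb2, .q1), (-1, .bb2, .r2)]
  | _ => []

section alg
variable {A : Type} [CommRing A]

/-- The frame index of the angular vector number a. -/
def ai (a : Fin 2) : Fin 4 := ![2, 3] a

/-- Sums over the tables. dU k j is the derivative of U_j along the frame vector e_k. -/
def angS (dU : Fin 4 → Ix → A) (L : List (ℤ × Fin 2 × Ix)) : A :=
  (L.map fun t => (t.1 : A) * dU (ai t.2.1) t.2.2).sum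
def linS (U : Ix → A) (L : List (ℤ × Ix)) : A := (L.map fun t => (t.1 : A) * U t.2).sum
def quadS (U : Ix → A) (L : List (ℤ × Ix × Ix)) : A :=
  (L.map fun t => (t.1 : A) * (U t.2.1 * U t.2.2)).sum

/-- The left sides of the n-equation and of the l-equation of the unknown i. -/
def resN (U : Ix → A) (dU : Fin 4 → Ix → A) (i : Ix) : A :=
  (cN i : A) * dU 1 i + angS dU (angN i) + linS U (linN i) + quadS U (quadN i)
def resL (U : Ix → A) (dU : Fin 4 → Ix → A) (i : Ix) : A :=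
  (cL i : A) * dU 0 i + angS dU (angL i) + linS U (linL i) + quadS U (quadL i)

/-- The left side of the equation number i of the reduced system. -/
def res (U : Ix → A) (dU : Fin 4 → Ix → A) (i : Ix) : A := resN U dU i + resL U dU i

/-- The coordinate components E U k mu of the frame vector e_k. -/
def E (U : Ix → A) : Fin 4 → Fin 4 → A :=
  ![![1, 1, U b1, U b2], ![1, -1, 0, 0], ![0, 0, U P11, U P12], ![0, 0, U P21, U P22]]

/-- The determinant of P. -/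
def detP (U : Ix → A) : A := U P11 * U P22 - U P12 * U P21

/-- The connection: D_(e_i) e_k = sum over j of Gam U i j k e_j. -/
def Gam (U : Ix → A) (i : Fin 4) : Fin 4 → Fin 4 → A :=
  let fp : A := ![U om, 0, U p1, U p2] i
  let fm : A := ![0, U omb, U q1, U q2] i
  let r : A := ![U r0, 0, U r1, U r2] i
  let al1 : A := ![0, U A1, U X11, U X12] i
  let al2 : A := ![0, U A2, U X21, U X22] i
  let bt1 : A := ![U B1, 0, U Y11, U Y12] i
  let bt2 : A := ![U B2, 0, U Y21, U Y22] i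
  ![![2 * fp, 0, bt1, bt2], ![0, 2 * fm, al1, al2], ![2 * al1, 2 * bt1, fp + fm, -r],
    ![2 * al2, 2 * bt2, r, fp + fm]]

/-- The form d log O on the frame. -/
def sg (U : Ix → A) : Fin 4 → A := ![U om, U omb, U p1 + U q1, U p2 + U q2]

/-- An antisymmetric matrix from its entries 01, 02, 03, 12, 13, 23. -/
def asym (a b c d e f : A) : Fin 4 → Fin 4 → A :=
  ![![0, a, b, c], ![-a, 0, d, e], ![-b, -d, 0, f], ![-c, -e, -f, 0]]

/-- The Weyl field: R(e_x, e_y) e_k = sum over j of Wy U j k x y e_j. -/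
def Wy (U : Ix → A) : Fin 4 → Fin 4 → Fin 4 → Fin 4 → A :=
  let f := asym (2 * U rho) (U be1) (U be2) (U bb1) (U bb2) (U sig)
  let r := asym (-(2 * U sig)) (-U be2) (U be1) (U bb2) (-U bb1) (U rho)
  let al1 := asym (-(2 * U be1)) (-U a1) (-U a2) (U rho) (-U sig) (-U be2)
  let al2 := asym (-(2 * U be2)) (-U a2) (U a1) (U sig) (U rho) (U be1)
  let bt1 := asym (-(2 * U bb1)) (U rho) (U sig) (-U ab1) (-U ab2) (U bb2)
  let bt2 := asym (-(2 * U bb2)) (-U sig) (U rho) (-U ab2) (U ab1) (-U bb1)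
  fun j k x y => ![![2 * f x y, 0, bt1 x y, bt2 x y], ![0, -(2 * f x y), al1 x y, al2 x y],
    ![2 * al1 x y, 2 * bt1 x y, 0, -(2 * r x y)], ![2 * al2 x y, 2 * bt2 x y, 2 * r x y, 0]] j k

/-- Torsion in coordinate components: T(e_x, e_y)^mu, where dE k i mu is e_k (E i mu). -/
def torC (U : Ix → A) (dE : Fin 4 → Fin 4 → Fin 4 → A) (x y μ : Fin 4) : A :=
  ∑ j, (Gam U x j y - Gam U y j x) * E U j μ - (dE x y μ - dE y x μ)

/-- The derivative of E along e_k. -/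
def dEof (dU : Fin 4 → Ix → A) (k : Fin 4) : Fin 4 → Fin 4 → A :=
  ![![0, 0, dU k b1, dU k b2], ![0, 0, 0, 0], ![0, 0, dU k P11, dU k P12],
    ![0, 0, dU k P21, dU k P22]]

/-- Curvature (with the brackets of the frame written by the connection) minus Weyl field. -/
def curD (U : Ix → A) (dU : Fin 4 → Ix → A) (j k x y : Fin 4) : A :=
  Gam (dU x) y j k - Gam (dU y) x j k +
    ∑ m, (Gam U x j m * Gam U y m k - Gam U y j m * Gam U x m k -
      (Gam U x m y - Gam U y m x) * Gam U m j k) - Wy U j k x y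

/-- All structure equations at a point: no torsion, d O = O sg, curvature = Weyl field, and both
halves of all Bianchi pairs. -/
structure Full (U : Ix → A) (dU : Fin 4 → Ix → A) : Prop where
  tor : ∀ x y μ, torC U (dEof dU) x y μ = 0
  dO : ∀ x, dU x O = U O * sg U x
  cur : ∀ j k x y, curD U dU j k x y = 0
  eqN : ∀ i, resN U dU i = 0
  eqL : ∀ i, resL U dU i = 0

/-- A vector with frame components s is tangent to the slices tau = const. -/
def tang : Fin 3 → Fin 4 → A := ![![1, -1, 0, 0], ![0, 0, 1, 0], ![0, 0, 0, 1]]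

/-- The constraints at a point: the pull backs of the defects to the slice vanish. The slice is
spanned by l - n, e2, e3; only derivatives along the slice occur. -/
structure Constr (U : Ix → A) (dU : Fin 4 → Ix → A) : Prop where
  tor : ∀ s t μ, ∑ x, ∑ y, tang s x * tang t y * torC U (dEof dU) x y μ = 0
  dO : ∀ s, ∑ x, tang s x * (dU x O - U O * sg U x) = 0
  cur : ∀ s t j k, ∑ x, ∑ y, tang s x * tang t y * curD U dU j k x y = 0

end alg

/-- A vector of R4 from its components. -/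
def vec (c : Fin 4 → ℝ) : R4 := (c 0, c 1, c 2, c 3)

/-- The components of a vector of R4. -/
def cp (a : R4) : Fin 4 → ℝ := ![a.1, a.2.1, a.2.2.1, a.2.2.2]

/-- The frame vector e_k at the value U. -/
def fr (U : Ix → ℝ) (k : Fin 4) : R4 := vec (E U k)

/-- The derivatives of the unknowns along the frame. -/
noncomputable def dfr (U : R4 → Ix → ℝ) (p : R4) (k : Fin 4) (i : Ix) : ℝ :=
  fderiv ℝ (fun z => U z i) p (fr (U p) k)

/-- All components are smooth on D. -/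
def SmU {ι : Type} (U : R4 → ι → ℝ) (D : Set R4) : Prop := ∀ i, ContDiffOn ℝ ∞ (fun z => U z i) D

/-- U solves the reduced system at p. -/
def Solves (U : R4 → Ix → ℝ) (p : R4) : Prop := ∀ i, res (U p) (dfr U p) i = 0

/-- The coframe: th U a k is the frame component number k of the vector a. -/
noncomputable def th (U : Ix → ℝ) (a : R4) : Fin 4 → ℝ :=
  let s := (a.1 + a.2.1) / 2
  let c := a.2.2.1 - U b1 * s
  let d := a.2.2.2 - U b2 * s
  ![s, (a.1 - a.2.1) / 2, (U P22 * c - U P21 * d) / detP U, (U P11 * d - U P12 * c) / detP U]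

/-- The form eta on frame components. -/
def eta {A : Type} [CommRing A] (s t : Fin 4 → A) : A :=
  -(2 * (s 0 * t 1 + s 1 * t 0)) + s 2 * t 2 + s 3 * t 3

/-- The metric O^2 (-dtau^2 + dx^2 + sum (theta^a)^2) of the unknowns U. -/
noncomputable def met (U : R4 → Ix → ℝ) (p a b : R4) : ℝ :=
  U p O ^ 2 * eta (th (U p) a) (th (U p) b)

/-- The Christoffel map of the unknowns U: con U p a b is the covariant derivative of the constant
field b in the direction a. -/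
noncomputable def con (U : R4 → Ix → ℝ) (p a b : R4) : R4 :=
  ∑ k, (fderiv ℝ (fun z => th (U z) b k) p a +
    ∑ i, ∑ j, th (U p) a i * Gam (U p) i k j * th (U p) b j) • fr (U p) k

/-- The metric g with the Christoffel map G solves Ric = 0 at p (as in IsVacuum). -/
def RicZero (g : R4 → R4 → R4 → ℝ) (G : R4 → R4 → R4 → R4) (p : R4) : Prop :=
  ∃ B B' : Fin 4 → R4, (∀ i j, g p (B i) (B' j) = if i = j then 1 else 0) ∧
    ∀ b c, ∑ i, P354n.Riem g G p (B i) b c (B' i) = 0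

/-- The differential of φ at p is zero or future causal (ε = 1), past causal (ε = -1). -/
def Causal (ε : ℝ) (U : R4 → Ix → ℝ) (φ : R4 → ℝ) (p : R4) : Prop :=
  0 ≤ ε * fderiv ℝ φ p (fr (U p) 0) ∧ 0 ≤ ε * fderiv ℝ φ p (fr (U p) 1) ∧
    fderiv ℝ φ p (fr (U p) 2) ^ 2 + fderiv ℝ φ p (fr (U p) 3) ^ 2 ≤
      fderiv ℝ φ p (fr (U p) 0) * fderiv ℝ φ p (fr (U p) 1)

/-- Propagation of the constraints, to the future (ε = 1) and to the past (ε = -1) of the slice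
tau = t0, in the domain where all φ i are negative and ε (tau - t0) is in [0, T]. -/
def PROPAG : Prop :=
  ∀ (U : R4 → Ix → ℝ) (ι : Type) [Fintype ι] (φ : ι → R4 → ℝ)
    (Ω D : Set R4) (ε t0 T : ℝ), (ε = 1 ∨ ε = -1) → IsOpen Ω → IsCompact D → D ⊆ Ω →
    SmU U Ω → (∀ p ∈ Ω, detP (U p) ≠ 0 ∧ Solves U p) →
    (∀ i, ContDiff ℝ 1 (φ i)) →
    (∀ p : R4, ε * (p.1 - t0) ∈ Icc 0 T → (∀ i, φ i p < 0) → p ∈ D ∧ ∀ i, Causal ε U (φ i) p) →
    (∀ p : R4, p.1 = t0 → (∀ i, φ i p < 0) → Constr (U p) (dfr U p)) →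
    ∀ p : R4, ε * (p.1 - t0) ∈ Icc 0 T → (∀ i, φ i p < 0) → Full (U p) (dfr U p)

/-- Without torsion con is the Levi-Civita connection of met and the curvature is the frame
curvature; with all structure equations the metric is vacuum. -/
def VAC : Prop :=
  ∀ (U : R4 → Ix → ℝ) (D : Set R4), IsOpen D → SmU U D →
    (∀ p ∈ D, detP (U p) ≠ 0 ∧ U p O ≠ 0 ∧ (∀ x y μ, torC (U p) (dEof (dfr U p)) x y μ = 0) ∧
      ∀ x, dfr U p x O = U p O * sg (U p) x) →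
    ∀ p ∈ D, P354n.IsConn (met U) (con U) p ∧
      (∀ k x y d, P354n.Riem (met U) (con U) p (fr (U p) x) (fr (U p) y) (fr (U p) k) d =
        U p O ^ 2 * eta (fun j => curD (U p) (dfr U p) j k x y + Wy (U p) j k x y) (th (U p) d)) ∧
      (Full (U p) (dfr U p) → RicZero (met U) (con U) p)

/-- The brackets of the frame: [e_x, e_y] = sum over k of br U dU x y k e_k. -/
noncomputable def br (U : Ix → ℝ) (dU : Fin 4 → Ix → ℝ) (x y : Fin 4) : Fin 4 → ℝ :=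
  th U (vec fun μ => dEof dU x y μ - dEof dU y x μ)

/-- The connection coefficients from O, b, P and their first derivatives; curvature zero. -/
noncomputable def lift1 (U : Ix → ℝ) (dU : Fin 4 → Ix → ℝ) : Ix → ℝ
  | .om => dU 0 O / U O
  | .omb => dU 1 O / U O
  | .p1 => dU 2 O / U O / 2 - br U dU 1 0 2 / 8
  | .p2 => dU 3 O / U O / 2 - br U dU 1 0 3 / 8
  | .q1 => dU 2 O / U O / 2 + br U dU 1 0 2 / 8
  | .q2 => dU 3 O / U O / 2 + br U dU 1 0 3 / 8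
  | .r0 => (br U dU 0 2 3 - br U dU 0 3 2) / 2
  | .r1 => -br U dU 2 3 2 - dU 3 O / U O
  | .r2 => dU 2 O / U O - br U dU 2 3 3
  | .A1 => dU 2 O / U O + br U dU 1 0 2 / 4
  | .A2 => dU 3 O / U O + br U dU 1 0 3 / 4
  | .B1 => dU 2 O / U O - br U dU 1 0 2 / 4
  | .B2 => dU 3 O / U O - br U dU 1 0 3 / 4
  | .X11 => (dU 0 O / U O - br U dU 0 2 2) / 2
  | .X22 => (dU 0 O / U O - br U dU 0 3 3) / 2
  | .X12 | .X21 => -(br U dU 0 2 3 + br U dU 0 3 2) / 4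
  | .Y11 => (dU 1 O / U O - br U dU 1 2 2) / 2
  | .Y22 => (dU 1 O / U O - br U dU 1 3 3) / 2
  | .Y12 | .Y21 => -br U dU 1 2 3 / 2
  | .O => U O
  | .b1 => U b1
  | .b2 => U b2
  | .P11 => U P11
  | .P12 => U P12
  | .P21 => U P21
  | .P22 => U P22
  | _ => 0

/-- The Weyl components read off from the curvature of the connection in U (whose Weyl entries
are zero). -/
noncomputable def lift2 (U : Ix → ℝ) (dU : Fin 4 → Ix → ℝ) : Ix → ℝ
  | .a1 => -curD U dU 1 2 0 2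
  | .a2 => -curD U dU 1 2 0 3
  | .be1 => -curD U dU 1 2 0 1 / 2
  | .be2 => -curD U dU 1 3 0 1 / 2
  | .rho => curD U dU 3 2 2 3 / 2
  | .sig => curD U dU 0 0 2 3 / 2
  | .bb1 => -curD U dU 0 2 0 1 / 2
  | .bb2 => -curD U dU 0 3 0 1 / 2
  | .ab1 => -curD U dU 0 2 1 2
  | .ab2 => -curD U dU 0 2 1 3
  | i => U i

/-- All unknowns from O, b, P (the other entries of U are not used). -/
noncomputable def L1 (U : R4 → Ix → ℝ) (p : R4) : Ix → ℝ := lift1 (U p) (dfr U p)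
noncomputable def L2 (U : R4 → Ix → ℝ) (p : R4) : Ix → ℝ := lift2 (L1 U p) (dfr (L1 U) p)

/-- A double null metric with a frame which does not rotate along n: the lift is smooth and has no
torsion; if the metric is vacuum, the lift solves all structure equations. -/
def CONV : Prop :=
  ∀ (U : R4 → Ix → ℝ) (D : Set R4), IsOpen D →
    (∀ i ∈ [O, b1, b2, P11, P12, P21, P22], ContDiffOn ℝ ∞ (fun z => U z i) D) →
    (∀ p ∈ D, detP (U p) ≠ 0 ∧ U p O ≠ 0 ∧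
      br (U p) (dfr U p) 1 2 3 = br (U p) (dfr U p) 1 3 2) →
    SmU (L1 U) D ∧ SmU (L2 U) D ∧ met (L2 U) = met U ∧
    (∀ p ∈ D, (∀ x y μ, torC (L2 U p) (dEof (dfr (L2 U) p)) x y μ = 0) ∧
      ∀ x, dfr (L2 U) p x O = U p O * sg (L2 U p) x) ∧
    ∀ G, (∀ p ∈ D, P354n.IsConn (met U) G p ∧ RicZero (met U) G p) →
      ∀ p ∈ D, Full (L2 U p) (dfr (L2 U) p)

/-- A solution of all structure equations is determined by O, b, P. -/
def DET : Prop :=
  ∀ (U : R4 → Ix → ℝ) (D : Set R4), IsOpen D → SmU U D →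
    (∀ p ∈ D, detP (U p) ≠ 0 ∧ U p O ≠ 0 ∧ Full (U p) (dfr U p)) → ∀ p ∈ D, L2 U p = U p

/-- Uniqueness for the reduced system, to the future (ε = 1) and to the past (ε = -1). -/
def UNI : Prop :=
  ∀ (U U' : R4 → Ix → ℝ) (ι : Type) [Fintype ι] (φ : ι → R4 → ℝ)
    (Ω D : Set R4) (ε t0 T : ℝ), (ε = 1 ∨ ε = -1) → IsOpen Ω → IsCompact D → D ⊆ Ω →
    SmU U Ω → SmU U' Ω → (∀ i, ContDiff ℝ 1 (φ i)) →
    (∀ p : R4, ε * (p.1 - t0) ∈ Icc 0 T → (∀ i, φ i p < 0) →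
      p ∈ D ∧ Solves U p ∧ Solves U' p ∧ ∀ i, Causal ε U (φ i) p) →
    (∀ p : R4, p.1 = t0 → (∀ i, φ i p < 0) → U p = U' p) →
    ∀ p : R4, ε * (p.1 - t0) ∈ Icc 0 T → (∀ i, φ i p < 0) → U p = U' p

/-- The scale which makes the coefficient of the time derivative the identity. -/
noncomputable def sc (i : Ix) : ℝ := √((cN i + cL i : ℤ) : ℝ)

/-- The unknowns K + W / sc of a perturbation W of the background K. -/
noncomputable def pert (K : R4 → Ix → ℝ) (W : R4 → EuclideanSpace ℝ Ix) (p : R4) (i : Ix) : ℝ :=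
  K p i + W p i / sc i

/-- The equation res (K + W / sc) = res K is a system of the form of P354H. -/
def SYS : Prop :=
  ∀ K : R4 → Ix → ℝ, SmU K univ → ∃ S : P354H.Sys (EuclideanSpace ℝ Ix), S.OK ∧
    (∀ (I : Set ℝ) (C : ℕ → ℝ), (∀ k, ∀ t ∈ I, ∀ i, P354H.Sb k (fun x => K (t, x) i) (C k)) →
      S.Bd I fun k => 10000 * (1 + C (k + 1))) ∧
    ∀ W p, DifferentiableAt ℝ W p → (S.Holds W p ↔
      ∀ i, res (pert K W p) (dfr (pert K W) p) i = res (K p) (dfr K p) i)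

end Vale.Agent.P354C
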