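import Vale.Agent.P354C.Form
import Vale.Agent.P354C.Defs

/-!
The ring of smooth functions on an open set, its derivations, and the frame of the unknowns.
-/

open scoped ContDiff
open Set Filter Topology

namespace Vale.Agent.P354C

open Vale.Agent.P354n (R4)

section mk
variable {A : Type} [CommRing A] (d : Fin 4 → A →+ A) (E θ : Fin 4 → Fin 4 → A)

/-- The derivative along the vector with the components E x. -/
def eOf (x : Fin 4) : A →+ A where
  toFun f := ∑ μ, E x μ * d μ f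
  map_zero' := by simp
  map_add' f g := by simp only [map_add, mul_add, Finset.sum_add_distrib]

theorem eOf_ap (x : Fin 4) (f : A) : eOf d E x f = ∑ μ, E x μ * d μ f := rfl

/-- The structure functions. -/
def cOf (x y m : Fin 4) : A := ∑ μ, θ m μ * (eOf d E x (E y μ) - eOf d E y (E x μ))

variable (dm : ∀ μ f g, d μ (f * g) = d μ f * g + f * d μ g)
  (dc : ∀ μ ν f, d μ (d ν f) = d ν (d μ f))
  (h1 : ∀ m x, ∑ μ, θ m μ * E x μ = if m = x then 1 else 0)
  (h2 : ∀ μ ν, ∑ m, θ m μ * E m ν = if μ = ν then 1 else 0)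

include dm in
theorem eOf_mul (x : Fin 4) (f g : A) : eOf d E x (f * g) = eOf d E x f * g + f * eOf d E x g := by
  simp only [eOf_ap, dm, Fin.sum_univ_four]
  ring

include h2 in
theorem cOf_E (x y ν : Fin 4) :
    ∑ m, cOf d E θ x y m * E m ν = eOf d E x (E y ν) - eOf d E y (E x ν) := by
  simp only [cOf, Finset.sum_mul]
  rw [Finset.sum_comm]
  have : ∀ μ, ∑ m, θ m μ * (eOf d E x (E y μ) - eOf d E y (E x μ)) * E m ν =
      (∑ m, θ m μ * E m ν) * (eOf d E x (E y μ) - eOf d E y (E x μ)) := fun μ => by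
    rw [Finset.sum_mul]
    exact Finset.sum_congr rfl fun m _ => by ring
  simp [this, h2]

include dm dc h2 in
theorem eOf_comm (x y : Fin 4) (f : A) : eOf d E x (eOf d E y f) - eOf d E y (eOf d E x f) =
    ∑ m, cOf d E θ x y m * eOf d E m f := by
  have a := cOf_E d E θ h2 x y
  have e1 : ∑ m, cOf d E θ x y m * eOf d E m f = ∑ ν, (∑ m, cOf d E θ x y m * E m ν) * d ν f := by
    simp only [eOf_ap, Fin.sum_univ_four]
    ring
  rw [e1]
  simp only [a]
  simp only [eOf_ap, map_add, dm, Fin.sum_univ_four, dc 1 0, dc 2 0, dc 3 0, dc 2 1, dc 3 1, dc 3 2]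
  ring

include dm dc h1 h2 in
theorem cOf_jac (x y z m : Fin 4) :
    eOf d E x (cOf d E θ y z m) + eOf d E y (cOf d E θ z x m) + eOf d E z (cOf d E θ x y m) =
    ∑ n, (cOf d E θ x y n * cOf d E θ n z m + cOf d E θ y z n * cOf d E θ n x m +
      cOf d E θ z x n * cOf d E θ n y m) := by
  set c := cOf d E θ
  set e := eOf d E
  have an : ∀ x y m, c y x m = -c x y m := fun x y m => by
    simp only [c, cOf, Fin.sum_univ_four]
    ring
  have key : ∀ ν, ∑ l, (e x (c y z l) + e y (c z x l) + e z (c x y l) -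
      ∑ n, (c x y n * c n z l + c y z n * c n x l + c z x n * c n y l)) * E l ν = 0 := fun ν => by
    have a : ∀ x y, ∑ m, c x y m * E m ν = e x (E y ν) - e y (E x ν) := fun x y =>
      cOf_E d E θ h2 x y ν
    have b : ∀ x y f, e x (e y f) - e y (e x f) = ∑ m, c x y m * e m f := eOf_comm d E θ dm dc h2
    have g : ∀ x f g, e x (f * g) = e x f * g + f * e x g := eOf_mul d E dm
    have a1 := congrArg (e x) (a y z)
    have a2 := congrArg (e y) (a z x)
    have a3 := congrArg (e z) (a x y)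
    have b1 := b y z (E x ν)
    have b2 := b z x (E y ν)
    have b3 := b x y (E z ν)
    have s : ∀ x y z, ∑ n, c x y n * ∑ m, c n z m * E m ν =
        ∑ n, c x y n * (e n (E z ν) - e z (E n ν)) := fun x y z => by simp only [a]
    have s1 := s x y z
    have s2 := s y z x
    have s3 := s z x y
    simp only [map_add, map_sub, g, Fin.sum_univ_four] at a1 a2 a3 b1 b2 b3 s1 s2 s3 ⊢
    linear_combination a1 + a2 + a3 + b1 + b2 + b3 - s1 - s2 - s3
  have : ∑ ν, θ m ν * ∑ l, (e x (c y z l) + e y (c z x l) + e z (c x y l) -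
      ∑ n, (c x y n * c n z l + c y z n * c n x l + c z x n * c n y l)) * E l ν =
      ∑ l, (∑ ν, θ m ν * E l ν) * (e x (c y z l) + e y (c z x l) + e z (c x y l) -
      ∑ n, (c x y n * c n z l + c y z n * c n x l + c z x n * c n y l)) := by
    simp only [Finset.mul_sum, Finset.sum_mul]
    rw [Finset.sum_comm]
    exact Finset.sum_congr rfl fun _ _ => Finset.sum_congr rfl fun _ _ => by ring
  simp only [key, h1, mul_zero, Finset.sum_const_zero, ite_mul, one_mul, zero_mul,
    Finset.sum_ite_eq, Finset.mem_univ, if_true] at this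
  linear_combination -this

/-- The frame with components E and coframe θ. -/
def Fr.of : Fr A where
  e := eOf d E
  mul := eOf_mul d E dm
  c := cOf d E θ
  comm := eOf_comm d E θ dm dc h2
  anti x y m := by
    simp only [cOf, Fin.sum_univ_four]
    ring
  diag x m := by simp [cOf]
  jac := cOf_jac d E θ dm dc h1 h2

end mk

section ring
variable (Ω : Set R4)

/-- Smooth functions on Ω. -/
def Sm : Subalgebra ℝ (Ω → ℝ) where
  carrier := {g | ∃ f : R4 → ℝ, ContDiffOn ℝ ∞ f Ω ∧ ∀ p : Ω, f p = g p}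
  mul_mem' := by
    rintro _ _ ⟨f, hf, e⟩ ⟨g, hg, e'⟩
    exact ⟨f * g, hf.mul hg, fun p => by simp [e, e']⟩
  add_mem' := by
    rintro _ _ ⟨f, hf, e⟩ ⟨g, hg, e'⟩
    exact ⟨f + g, hf.add hg, fun p => by simp [e, e']⟩
  algebraMap_mem' r := ⟨fun _ => r, contDiffOn_const, fun _ => rfl⟩

variable {Ω}

/-- A smooth function as an element of the ring. -/
def mk (f : R4 → ℝ) (hf : ContDiffOn ℝ ∞ f Ω) : Sm Ω := ⟨fun p => f p, f, hf, fun _ => rfl⟩

/-- A representative. -/
noncomputable def rep (g : Sm Ω) : R4 → ℝ := g.2.choose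

theorem rep_sm (g : Sm Ω) : ContDiffOn ℝ ∞ (rep g) Ω := g.2.choose_spec.1

/-- Evaluation. -/
def ev (p : Ω) : Sm Ω →+* ℝ where
  toFun g := g.1 p
  map_one' := rfl
  map_mul' _ _ := rfl
  map_zero' := rfl
  map_add' _ _ := rfl

theorem rep_ev (g : Sm Ω) (p : Ω) : rep g p = ev p g := g.2.choose_spec.2 p

theorem ev_mk (f : R4 → ℝ) (hf : ContDiffOn ℝ ∞ f Ω) (p : Ω) : ev p (mk f hf) = f p := rfl

theorem ev_ext {g g' : Sm Ω} (h : ∀ p, ev p g = ev p g') : g = g' := Subtype.ext (funext h)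

variable (hΩ : IsOpen Ω)
include hΩ

theorem fd_sm {f : R4 → ℝ} (hf : ContDiffOn ℝ ∞ f Ω) (a : R4) :
    ContDiffOn ℝ ∞ (fun p => fderiv ℝ f p a) Ω :=
  (hf.fderiv_of_isOpen hΩ (m := ∞) (by simp)).clm_apply contDiffOn_const

theorem fd_congr {f g : R4 → ℝ} (h : ∀ p : Ω, f p = g p) (p : Ω) : fderiv ℝ f p = fderiv ℝ g p :=
  Filter.EventuallyEq.fderiv_eq (eventually_of_mem (hΩ.mem_nhds p.2) fun q hq => h ⟨q, hq⟩)

theorem da {f : R4 → ℝ} (hf : ContDiffOn ℝ ∞ f Ω) (p : Ω) : DifferentiableAt ℝ f p :=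
  (hf.contDiffAt (hΩ.mem_nhds p.2)).differentiableAt (by simp)

/-- The derivative in the direction a. -/
noncomputable def pdv (a : R4) : Sm Ω →+ Sm Ω where
  toFun g := mk (fun p => fderiv ℝ (rep g) p a) (fd_sm hΩ (rep_sm g) a)
  map_zero' := ev_ext fun p => by
    rw [ev_mk, fd_congr hΩ (g := fun _ => 0) (fun q => rep_ev 0 q)]
    simp
  map_add' f g := ev_ext fun p => by
    rw [map_add, ev_mk, ev_mk, ev_mk, fd_congr hΩ (g := rep f + rep g)
      (fun q => by simp [rep_ev]), fderiv_add (da hΩ (rep_sm f) p) (da hΩ (rep_sm g) p)]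
    rfl

theorem ev_pdv (a : R4) (g : Sm Ω) (p : Ω) : ev p (pdv hΩ a g) = fderiv ℝ (rep g) p a := rfl

theorem pdv_mul (a : R4) (f g : Sm Ω) : pdv hΩ a (f * g) = pdv hΩ a f * g + f * pdv hΩ a g :=
  ev_ext fun p => by
    rw [map_add (ev p), map_mul (ev p), map_mul (ev p), ev_pdv, ev_pdv, ev_pdv,
      fd_congr hΩ (g := rep f * rep g)
      (fun q => by simp [rep_ev]), fderiv_mul (da hΩ (rep_sm f) p) (da hΩ (rep_sm g) p)]
    simp [rep_ev]
    ring

theorem pdv_comm (a b : R4) (f : Sm Ω) : pdv hΩ a (pdv hΩ b f) = pdv hΩ b (pdv hΩ a f) :=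
  ev_ext fun p => by
    have h : ∀ a b, ev p (pdv hΩ a (pdv hΩ b f)) = fderiv ℝ (fderiv ℝ (rep f)) p a b := fun a b => by
      rw [ev_pdv, fd_congr hΩ (g := fun q => fderiv ℝ (rep f) q b) (fun q => rep_ev _ q),
        fderiv_clm_apply ((((rep_sm f).fderiv_of_isOpen hΩ (m := ∞) (by simp)).contDiffAt
          (hΩ.mem_nhds p.2)).differentiableAt (by simp)) (differentiableAt_const b)]
      simp
    rw [h, h]
    exact (((rep_sm f).contDiffAt (hΩ.mem_nhds p.2)).isSymmSndFDerivAt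
      (by simpa using WithTop.coe_le_coe.2 (le_top (a := (2 : ℕ∞))))).eq a b

end ring

end Vale.Agent.P354C
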