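import Vale.Agent.P354C.Map
import Vale.Agent.P354C.Ring

/-!
The frame of the unknowns in the ring of smooth functions.
-/

open scoped ContDiff
open Set Filter Topology

namespace Vale.Agent.P354C

open Vale.Agent.P354n (R4)
open Ix

section conc
variable {Ω : Set R4} (hΩ : IsOpen Ω) {U : R4 → Ix → ℝ} (hU : SmU U Ω)
  (hP : ∀ p ∈ Ω, detP (U p) ≠ 0)

/-- The coordinate vectors. -/
def bs : Fin 4 → R4 := ![(1, 0, 0, 0), (0, 1, 0, 0), (0, 0, 1, 0), (0, 0, 0, 1)]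

/-- The unknowns, 1/2 and the inverse determinant in the ring. -/
def UA (i : Ix) : Sm Ω := mk (fun z => U z i) (hU i)
noncomputable def hA : Sm Ω := mk (fun _ => 1 / 2) contDiffOn_const
noncomputable def dA : Sm Ω := mk (fun z => (detP (U z))⁻¹)
  ((((hU P11).mul (hU P22)).sub ((hU P12).mul (hU P21))).inv hP)

theorem hA_two : 2 * (hA : Sm Ω) = 1 := ev_ext fun p => by
  rw [map_mul, map_ofNat, map_one, hA, ev_mk]
  norm_num

theorem dA_det : dA hU hP * detP (UA hU) = 1 := ev_ext fun p => by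
  simp only [detP, map_mul, map_sub, map_one]
  exact inv_mul_cancel₀ (hP p p.2)

/-- The frame. -/
noncomputable def FA : Fr (Sm Ω) :=
  Fr.of (fun μ => pdv hΩ (bs μ)) (E (UA hU)) (thA (UA hU) hA (dA hU hP))
    (fun _ => pdv_mul hΩ _) (fun _ _ => pdv_comm hΩ _ _) (thA_E _ hA_two (dA_det hU hP))
    (E_thA _ hA_two (dA_det hU hP))

theorem ev_UA (p : Ω) : (fun i => ev p (UA hU i)) = U p := rfl

theorem ev_e (x : Fin 4) (g : Sm Ω) (p : Ω) :
    ev p ((FA hΩ hU hP).e x g) = fderiv ℝ (rep g) p (fr (U p) x) := by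
  have : fr (U p) x = ∑ μ, E (U p) x μ • bs μ := by
    simp [fr, vec, bs, Fin.sum_univ_four]
  rw [this]
  simp only [FA, Fr.of, eOf_ap, map_sum, map_mul, map_E, ev_UA, ev_pdv, map_smul, smul_eq_mul]

theorem ev_dd (p : Ω) : (fun x i => ev p ((FA hΩ hU hP).dd (UA hU) x i)) = dfr U p := by
  funext x i
  rw [Fr.dd, ev_e, fd_congr hΩ (g := fun z => U z i) (fun q => rep_ev _ q)]
  rfl

theorem T_tor (x y m : Fin 4) : (FA hΩ hU hP).T (Gam (UA hU)) x y m =
    ∑ μ, thA (UA hU) hA (dA hU hP) m μ * torC (UA hU) (dEof ((FA hΩ hU hP).dd (UA hU))) x y μ := by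
  have h := thA_E _ hA_two (dA_det hU hP) m
  have e : ∑ μ, thA (UA hU) hA (dA hU hP) m μ *
      ∑ j, (Gam (UA hU) x j y - Gam (UA hU) y j x) * E (UA hU) j μ =
      ∑ j, (∑ μ, thA (UA hU) hA (dA hU hP) m μ * E (UA hU) j μ) *
        (Gam (UA hU) x j y - Gam (UA hU) y j x) := by
    simp only [Fin.sum_univ_four]
    ring
  simp only [torC, edE, mul_sub, Finset.sum_sub_distrib, e, h, ite_mul, one_mul, zero_mul,
    Finset.sum_ite_eq, Finset.mem_univ, if_true]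
  simp only [Fr.T, FA, Fr.of, cOf, mul_sub, Finset.sum_sub_distrib]

theorem tor_T (x y μ : Fin 4) : torC (UA hU) (dEof ((FA hΩ hU hP).dd (UA hU))) x y μ =
    ∑ m, (FA hΩ hU hP).T (Gam (UA hU)) x y m * E (UA hU) m μ := by
  have h := cOf_E (fun μ => pdv hΩ (bs μ)) (E (UA hU)) (thA (UA hU) hA (dA hU hP))
    (E_thA _ hA_two (dA_det hU hP)) x y μ
  simp only [torC, edE, Fr.T, sub_mul, Finset.sum_sub_distrib]
  simp only [FA, Fr.of, h]

theorem red (hS : ∀ p ∈ Ω, Solves U p) : Red (FA hΩ hU hP) (UA hU) := by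
  have hr : ∀ i, res (UA hU) ((FA hΩ hU hP).dd (UA hU)) i = 0 := fun i => ev_ext fun p => by
    rw [res, map_add, map_resN, map_resL, ev_UA, ev_dd]
    exact hS p p.2 i
  have hN : ∀ i, cL i = 0 ∧ angL i = [] ∧ linL i = [] ∧ quadL i = [] →
      resN (UA hU) ((FA hΩ hU hP).dd (UA hU)) i = 0 := fun i hi => by
    simpa only [res, resL_nil _ _ hi, add_zero] using hr i
  obtain ⟨a, b, c⟩ := tor_res (UA hU) ((FA hΩ hU hP).dd (UA hU))
  rw [hN _ (by decide), hN _ (by decide), neg_zero] at a b c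
  have t : ∀ y, torC (UA hU) (dEof ((FA hΩ hU hP).dd (UA hU))) 1 y 2 = 0 ∧
      torC (UA hU) (dEof ((FA hΩ hU hP).dd (UA hU))) 1 y 3 = 0 := fun y => by
    fin_cases y
    exacts [a, ⟨tor_diag _ _ _ _, tor_diag _ _ _ _⟩, b, c]
  refine ⟨hr, fun y m hm => ?_, fun y => ?_⟩
  · have s := (tor_01 (UA hU) ((FA hΩ hU hP).dd (UA hU)) y).1
    rw [T_tor, Fin.sum_univ_four, (t y).1, (t y).2, eq_neg_of_add_eq_zero_left s]
    fin_cases m
    · simp [thA]
      ring
    · exact absurd rfl hm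
    · simp [thA]
      ring
    · simp [thA]
      ring
  · have s := (tor_01 (UA hU) ((FA hΩ hU hP).dd (UA hU)) y).2
    rw [T_tor, Fin.sum_univ_four, sub_eq_zero.1 s]
    simp [thA]
    ring

theorem Ker.full {p : Ω} (K : Ker (FA hΩ hU hP) (UA hU) (ev p)) : Full (U p) (dfr U p) := by
  refine ⟨fun x y μ => ?_, fun x => ?_, fun j k x y => ?_, fun i => ?_, fun i => ?_⟩
  · rw [← ev_dd hΩ hU hP p, ← ev_UA hU p, ← map_torC, tor_T]
    simp [K.T]
  · have := K.S x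
    rw [SO, map_sub, map_mul, map_sg, ev_UA, sub_eq_zero] at this
    exact (congrFun (congrFun (ev_dd hΩ hU hP p) x) O).symm.trans this
  · rw [← ev_dd hΩ hU hP p, ← ev_UA hU p, ← map_curD, K.C]
  · rw [← ev_dd hΩ hU hP p, ← ev_UA hU p, ← map_resN, K.N]
  · rw [← ev_dd hΩ hU hP p, ← ev_UA hU p, ← map_resL, K.L]

end conc

end Vale.Agent.P354C
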