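import Vale.Agent.P354C.Defs
import Vale.Agent.P354HL.Local

/-!
Uniqueness for linear symmetric hyperbolic inequalities written with the frame.
-/

open scoped ContDiff
open Set Filter Topology

namespace Vale.Agent.P354C

open Vale.Agent.P354n (R4)
open Vale.Agent.P354H

/-- Uniqueness to the future and to the past. -/
theorem uniq_eps {V : Type} [NormedAddCommGroup V] [InnerProductSpace ℝ V] [FiniteDimensional ℝ V]
    {ι : Type} [Fintype ι] {φ : ι → R4 → ℝ} {A : Fin 3 → R4 → V →L[ℝ] V} {Z : R4 → V}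
    {Ω D : Set R4} {ε t0 T K : ℝ} (hε : ε = 1 ∨ ε = -1) (hΩ : IsOpen Ω) (hD : IsCompact D)
    (hDΩ : D ⊆ Ω) (hφ : ∀ i, ContDiff ℝ 1 (φ i)) (hA : ∀ j, ContDiffOn ℝ 1 (A j) Ω)
    (hZ : ContDiffOn ℝ 1 Z Ω)
    (H : ∀ p : R4, ε * (p.1 - t0) ∈ Icc 0 T → (∀ i, φ i p < 0) → p ∈ D ∧ (∀ j, Sym (A j p)) ∧
      ‖dt Z p - ∑ j, A j p (dx j Z p)‖ ≤ K * ‖Z p‖ ∧
      ∀ i z, ε * ∑ j, dx j (φ i) p * inner ℝ z (A j p z) ≤ ε * (dt (φ i) p * ‖z‖ ^ 2))
    (h0 : ∀ p : R4, p.1 = t0 → (∀ i, φ i p < 0) → Z p = 0) (p : R4)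
    (hp : ε * (p.1 - t0) ∈ Icc 0 T) (h : ∀ i, φ i p < 0) : Z p = 0 := by
  rcases hε with rfl | rfl
  · refine P354HU.uniq V ι φ A Z Ω D t0 (t0 + T) K hΩ hD hDΩ hφ hA hZ (fun q hq h => ?_)
      (fun x h => h0 _ rfl h) p ⟨by linarith [hp.1], by linarith [hp.2]⟩ h
    have := H q ⟨by linarith [hq.1], by linarith [hq.2]⟩ h
    simpa only [one_mul] using this
  · have hr : ∀ q : R4, P354HL.rv (P354HL.rv q) = q := fun q => by simp [P354HL.rv_ap]
    have hc : Continuous (P354HL.rv : R4 → R4) := P354HL.rv.continuous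
    have hd : ∀ {W : Type} [NormedAddCommGroup W] [NormedSpace ℝ W] (f : R4 → W) (q : R4),
        DifferentiableAt ℝ f (P354HL.rv q) → dt (fun q => f (P354HL.rv q)) q = -dt f (P354HL.rv q) ∧
        ∀ j, dx j (fun q => f (P354HL.rv q)) q = dx j f (P354HL.rv q) := fun f q hf => by
      have e := (hf.hasFDerivAt.comp q P354HL.rv.hasFDerivAt).fderiv
      refine ⟨?_, fun j => ?_⟩
      · simp only [dt]
        erw [e]
        rw [← map_neg]
        simp [P354HL.rv_ap]
      · simp only [dx]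
        erw [e]
        simp [P354HL.rv_ap]
    have := P354HU.uniq V ι (fun i q => φ i (P354HL.rv q)) (fun j q => -A j (P354HL.rv q))
      (fun q => Z (P354HL.rv q)) (P354HL.rv ⁻¹' Ω) (P354HL.rv '' D) (-t0) (-t0 + T) K
      (hΩ.preimage hc) (hD.image hc) (by rintro _ ⟨q, hq, rfl⟩; simpa [hr] using hDΩ hq)
      (fun i => (hφ i).comp P354HL.rv.contDiff)
      (fun j => ((hA j).comp P354HL.rv.contDiff.contDiffOn fun _ h => h).neg)
      (hZ.comp P354HL.rv.contDiff.contDiffOn fun _ h => h) (fun q hq h => ?_)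
      (fun x h => h0 _ (by simp [P354HL.rv_ap]) h) (P354HL.rv p)
      ⟨by rw [P354HL.rv_ap]; linarith [hp.1], by rw [P354HL.rv_ap]; linarith [hp.2]⟩
      (by simpa [hr] using h)
    · simpa [hr] using this
    obtain ⟨m, s, b, c⟩ := H (P354HL.rv q)
      ⟨by rw [P354HL.rv_ap]; linarith [hq.1], by rw [P354HL.rv_ap]; linarith [hq.2]⟩ h
    have dZ := hd Z q ((hZ.contDiffAt (hΩ.mem_nhds (hDΩ m))).differentiableAt one_ne_zero)
    refine ⟨⟨_, m, hr q⟩, fun j v w => ?_, ?_, fun i z => ?_⟩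
    · simpa using s j v w
    · rw [dZ.1, ← norm_neg]
      simp only [dZ.2, neg_apply, Finset.sum_neg_distrib, neg_sub_neg, neg_sub]
      simpa only [norm_sub_rev] using b
    · have dφ := hd (φ i) q ((hφ i).differentiable one_ne_zero _)
      have := c i z
      simp only [dφ.1, dφ.2, neg_apply, inner_neg_right, mul_neg,
        Finset.sum_neg_distrib]
      linarith

/-- The inequality for one Bianchi pair. -/
theorem pair_pos {lam nu m1 m2 x1 x2 y1 y2 : ℝ} (h0 : 0 ≤ lam) (h1 : 0 ≤ nu)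
    (h : m1 ^ 2 + m2 ^ 2 ≤ lam * nu) {t : ℝ}
    (ht : t ^ 2 ≤ (m1 ^ 2 + m2 ^ 2) * (x1 ^ 2 + x2 ^ 2) * (y1 ^ 2 + y2 ^ 2)) :
    0 ≤ nu * (x1 ^ 2 + x2 ^ 2) + lam * (y1 ^ 2 + y2 ^ 2) + 2 * t := by
  have hX : 0 ≤ x1 ^ 2 + x2 ^ 2 := by positivity
  have hY : 0 ≤ y1 ^ 2 + y2 ^ 2 := by positivity
  generalize x1 ^ 2 + x2 ^ 2 = X at *
  generalize y1 ^ 2 + y2 ^ 2 = Y at *
  have h2 : t ^ 2 ≤ lam * nu * X * Y :=
    ht.trans (mul_le_mul_of_nonneg_right (mul_le_mul_of_nonneg_right h hX) hY)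
  have h3 : |2 * t| ≤ nu * X + lam * Y :=
    abs_le_of_sq_le_sq (by nlinarith [sq_nonneg (nu * X - lam * Y)]) (by positivity)
  linarith [neg_abs_le (2 * t)]

theorem fd_fr (f : R4 → ℝ) (p : R4) (u : Ix → ℝ) (k : Fin 4) : fderiv ℝ f p (fr u k) =
    E u k 0 * dt f p + E u k 1 * dx 0 f p + E u k 2 * dx 1 f p + E u k 3 * dx 2 f p := by
  have : fr u k = E u k 0 • ((1, 0) : R4) + E u k 1 • ((0, e 0) : R4) + E u k 2 • ((0, e 1) : R4) +
      E u k 3 • ((0, e 2) : R4) := by
    simp [fr, vec, e]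
  rw [this]
  simp only [map_add, map_smul, smul_eq_mul, dt, dx]

/-- **Uniqueness** for cl l Z + cn n Z + M a e_a Z = O(Z). -/
theorem frame_uniq {κ : Type} [Fintype κ] [DecidableEq κ] (cl cn : κ → ℝ) (M : Fin 2 → κ → κ → ℝ)
    (hpos : ∀ k, 0 < cl k + cn k) (hM : ∀ a k j, M a k j = M a j k)
    (hc : ∀ lam nu m1 m2 : ℝ, 0 ≤ lam → 0 ≤ nu → m1 ^ 2 + m2 ^ 2 ≤ lam * nu → ∀ z : κ → ℝ,
      0 ≤ ∑ k, ((cl k * lam + cn k * nu) * z k ^ 2 + ∑ j, (m1 * M 0 k j + m2 * M 1 k j) * z k * z j))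
    {U : R4 → Ix → ℝ} {Z : R4 → κ → ℝ} {ι : Type} [Fintype ι] {φ : ι → R4 → ℝ} {Ω D : Set R4}
    {ε t0 T K : ℝ} (hε : ε = 1 ∨ ε = -1) (hΩ : IsOpen Ω) (hD : IsCompact D) (hDΩ : D ⊆ Ω)
    (hU : SmU U Ω) (hZ : SmU Z Ω) (hφ : ∀ i, ContDiff ℝ 1 (φ i))
    (H : ∀ p : R4, ε * (p.1 - t0) ∈ Icc 0 T → (∀ i, φ i p < 0) → p ∈ D ∧ (∀ i, Causal ε U (φ i) p) ∧
      ∀ k, |cl k * fderiv ℝ (fun z => Z z k) p (fr (U p) 0) +
        cn k * fderiv ℝ (fun z => Z z k) p (fr (U p) 1) +
        ∑ j, (M 0 k j * fderiv ℝ (fun z => Z z j) p (fr (U p) 2) +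
          M 1 k j * fderiv ℝ (fun z => Z z j) p (fr (U p) 3))| ≤ K * ∑ j, |Z p j|)
    (h0 : ∀ p : R4, p.1 = t0 → (∀ i, φ i p < 0) → Z p = 0) (p : R4)
    (hp : ε * (p.1 - t0) ∈ Icc 0 T) (h : ∀ i, φ i p < 0) : Z p = 0 := by
  set s : κ → ℝ := fun k => √(cl k + cn k) with hs
  have s0 : ∀ k, 0 < s k := fun k => Real.sqrt_pos.2 (hpos k)
  have s2 : ∀ k, s k * s k = cl k + cn k := fun k => Real.mul_self_sqrt (hpos k).le
  let m : Fin 3 → R4 → κ → κ → ℝ := fun j q k i =>
    -((if k = i then cl k * E (U q) 0 j.succ + cn k * E (U q) 1 j.succ else 0) +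
      M 0 k i * E (U q) 2 j.succ + M 1 k i * E (U q) 3 j.succ) / (s k * s i)
  let B : κ → κ → EuclideanSpace ℝ κ →L[ℝ] EuclideanSpace ℝ κ := fun k i =>
    (EuclideanSpace.proj i : EuclideanSpace ℝ κ →L[ℝ] ℝ).smulRight (EuclideanSpace.single k 1)
  let A : Fin 3 → R4 → EuclideanSpace ℝ κ →L[ℝ] EuclideanSpace ℝ κ := fun j q =>
    ∑ k, ∑ i, m j q k i • B k i
  have hA : ∀ j q v k, A j q v k = ∑ i, m j q k i * v i := fun j q v k => by
    simp [A, B, Finset.sum_apply, Pi.single_apply]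
  let Y : R4 → EuclideanSpace ℝ κ := fun q => WithLp.toLp 2 fun k => s k * Z q k
  have hY : ∀ q k, Y q k = s k * Z q k := fun _ _ => rfl
  have cY : ContDiffOn ℝ 1 Y Ω := by
    rw [contDiffOn_euclidean]
    exact fun k => contDiffOn_const.mul ((hZ k).of_le (by simp))
  have cE : ∀ k μ, ContDiffOn ℝ 1 (fun q => E (U q) k μ) Ω := fun k μ => by
    have := fun i => (hU i).of_le (m := 1) (by simp)
    fin_cases k <;> fin_cases μ <;> simp [E] <;> first | exact contDiffOn_const | exact this _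
  have msym : ∀ j q k i, m j q k i = m j q i k := fun j q k i => by
    simp only [m, hM _ k i, mul_comm (s k)]
    by_cases hk : k = i
    · subst hk; rfl
    · simp [hk, Ne.symm hk]
  have hip : ∀ (j q) (v w : EuclideanSpace ℝ κ),
      inner ℝ v (A j q w) = ∑ k, ∑ i, m j q k i * v k * w i := fun j q v w => by
    simp only [PiLp.inner_apply, hA, Finset.sum_mul, RCLike.inner_apply, conj_trivial]
    exact Finset.sum_congr rfl fun k _ => Finset.sum_congr rfl fun i _ => by ring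
  obtain ⟨C, hC⟩ : ∃ C : ℝ, C = ∑ k, (s k)⁻¹ := ⟨_, rfl⟩
  have hC1 : ∀ k, (s k)⁻¹ ≤ C := fun k =>
    hC ▸ Finset.single_le_sum (fun i _ => (inv_pos.2 (s0 i)).le) (Finset.mem_univ k)
  have hC0 : 0 ≤ C := hC ▸ Finset.sum_nonneg fun i _ => (inv_pos.2 (s0 i)).le
  have key := uniq_eps (A := A) (Z := Y) (K := Fintype.card κ * (C * (|K| * C))) hε hΩ hD hDΩ hφ
    (fun j => ContDiffOn.sum fun k _ => ContDiffOn.sum fun i _ => ?_) cY (fun q hq h => ?_)
    (fun q hq h => ?_) p hp h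
  · funext k
    have := congrArg (fun v : EuclideanSpace ℝ κ => v k) key
    simpa [hY, (s0 k).ne'] using this
  · refine ContDiffOn.smul (ContDiffOn.div_const (ContDiffOn.neg (((?_ : ContDiffOn ℝ 1 _ Ω).add
      (contDiffOn_const.mul (cE _ _))).add (contDiffOn_const.mul (cE _ _)))) _) contDiffOn_const
    split_ifs
    · exact (contDiffOn_const.mul (cE _ _)).add (contDiffOn_const.mul (cE _ _))
    · exact contDiffOn_const
  · obtain ⟨hqD, hca, hin⟩ := H q hq h
    have dZ : ∀ k, DifferentiableAt ℝ (fun z => Z z k) q := fun k =>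
      ((hZ k).contDiffAt (hΩ.mem_nhds (hDΩ hqD))).differentiableAt (by simp)
    have dY : ∀ v k, fderiv ℝ Y q v k = s k * fderiv ℝ (fun z => Z z k) q v := fun v k => by
      have d1 := ((cY.contDiffAt (hΩ.mem_nhds (hDΩ hqD))).differentiableAt one_ne_zero).hasFDerivAt
      have d2 := (EuclideanSpace.proj k : EuclideanSpace ℝ κ →L[ℝ] ℝ).hasFDerivAt.comp q d1
      have d3 := ((dZ k).hasFDerivAt.const_mul (s k)).unique d2
      have := congrArg (fun T : R4 →L[ℝ] ℝ => T v) d3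
      simpa using this.symm
    refine ⟨hqD, fun j v w => ?_, ?_, fun i z => ?_⟩
    · rw [real_inner_comm, hip, hip, Finset.sum_comm]
      exact Finset.sum_congr rfl fun k _ => Finset.sum_congr rfl fun i _ => by rw [msym]; ring
    · have hz : ∑ j, |Z q j| ≤ C * ‖Y q‖ := by
        rw [hC, Finset.sum_mul]
        refine Finset.sum_le_sum fun j _ => ?_
        have := PiLp.norm_apply_le (Y q) j
        rw [hY, Real.norm_eq_abs, abs_mul, abs_of_pos (s0 j)] at this
        rw [inv_mul_eq_div, le_div_iff₀ (s0 j)]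
        linarith
      have hk : ∀ k, |(dt Y q - ∑ j, A j q (dx j Y q)) k| ≤ C * (|K| * C) * ‖Y q‖ := fun k => by
        have e1 : (dt Y q - ∑ j, A j q (dx j Y q)) k = (s k)⁻¹ *
            (cl k * fderiv ℝ (fun z => Z z k) q (fr (U q) 0) +
            cn k * fderiv ℝ (fun z => Z z k) q (fr (U q) 1) +
            ∑ j, (M 0 k j * fderiv ℝ (fun z => Z z j) q (fr (U q) 2) +
              M 1 k j * fderiv ℝ (fun z => Z z j) q (fr (U q) 3))) := by
          have e2 : ∀ j i, m j q k i * (s i * dx j (fun z => Z z i) q) = -(s k)⁻¹ *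
              ((if k = i then (cl k * E (U q) 0 j.succ + cn k * E (U q) 1 j.succ) *
                dx j (fun z => Z z i) q else 0) + (M 0 k i * E (U q) 2 j.succ +
                M 1 k i * E (U q) 3 j.succ) * dx j (fun z => Z z i) q) := fun j i => by
            have := (s0 k).ne'
            have := (s0 i).ne'
            simp only [m]
            split_ifs <;> field_simp <;> ring
          have e4 : ∑ j : Fin 3, ∑ i, m j q k i * (s i * dx j (fun z => Z z i) q) = -(s k)⁻¹ *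
              (∑ j : Fin 3, (cl k * E (U q) 0 j.succ + cn k * E (U q) 1 j.succ) *
                dx j (fun z => Z z k) q + ∑ i, ∑ j : Fin 3, (M 0 k i * E (U q) 2 j.succ +
                M 1 k i * E (U q) 3 j.succ) * dx j (fun z => Z z i) q) := by
            simp only [e2, ← Finset.mul_sum, Finset.sum_add_distrib, Finset.sum_ite_eq,
              Finset.mem_univ, if_true]
            rw [Finset.sum_comm]
          have e5 : ∑ i, (M 0 k i * fderiv ℝ (fun z => Z z i) q (fr (U q) 2) +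
              M 1 k i * fderiv ℝ (fun z => Z z i) q (fr (U q) 3)) =
              ∑ i, ∑ j : Fin 3, (M 0 k i * E (U q) 2 j.succ +
                M 1 k i * E (U q) 3 j.succ) * dx j (fun z => Z z i) q :=
            Finset.sum_congr rfl fun i _ => by
              simp [fd_fr, E, Fin.sum_univ_three]
              ring
          have e6 : (dt Y q - ∑ j, A j q (dx j Y q)) k = s k * dt (fun z => Z z k) q -
              ∑ j : Fin 3, ∑ i, m j q k i * (s i * dx j (fun z => Z z i) q) := by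
            simp only [PiLp.sub_apply, Fin.sum_univ_three, PiLp.add_apply, hA, dt, dx, dY]
          have e3 : s k = (s k)⁻¹ * (cl k + cn k) := by
            rw [← s2, ← mul_assoc, inv_mul_cancel₀ (s0 k).ne', one_mul]
          rw [e6, e4, e5, fd_fr, fd_fr]
          generalize (∑ i, ∑ j : Fin 3, (M 0 k i * E (U q) 2 j.succ +
                M 1 k i * E (U q) 3 j.succ) * dx j (fun z => Z z i) q) = S
          simp [E, Fin.sum_univ_three]
          linear_combination dt (fun z => Z z k) q * e3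
        rw [e1, abs_mul, abs_of_pos (inv_pos.2 (s0 k)), mul_assoc]
        refine mul_le_mul (hC1 k) ((hin k).trans ?_) (abs_nonneg _) hC0
        rw [mul_assoc]
        exact mul_le_mul (le_abs_self K) hz (Finset.sum_nonneg fun _ _ => abs_nonneg _) (abs_nonneg K)
      have hn : ∀ v : EuclideanSpace ℝ κ, ‖v‖ ≤ ∑ k, |v k| := fun v => by
        conv_lhs => rw [← (EuclideanSpace.basisFun κ ℝ).sum_repr v]
        refine (norm_sum_le _ _).trans (Finset.sum_le_sum fun k _ => ?_)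
        simp [norm_smul]
      refine (hn _).trans ((Finset.sum_le_sum fun k _ => hk k).trans ?_)
      simp [mul_assoc]
    · obtain ⟨c0, c1, c2⟩ := hca i
      have ε2 : ε * ε = 1 := by rcases hε with rfl | rfl <;> norm_num
      have := hc _ _ (ε * fderiv ℝ (φ i) q (fr (U q) 2)) (ε * fderiv ℝ (φ i) q (fr (U q) 3)) c0 c1
        (by linear_combination (exp := 1) c2 + (fderiv ℝ (φ i) q (fr (U q) 2) ^ 2 +
          fderiv ℝ (φ i) q (fr (U q) 3) ^ 2 - fderiv ℝ (φ i) q (fr (U q) 0) *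
          fderiv ℝ (φ i) q (fr (U q) 1)) * ε2) fun k => z k / s k
      rw [← sub_nonneg]
      convert this using 1
      rw [EuclideanSpace.norm_sq_eq]
      simp only [hip, Finset.mul_sum]
      rw [Finset.sum_comm, ← Finset.sum_sub_distrib]
      refine Finset.sum_congr rfl fun k _ => ?_
      have e1 : ∀ j l, ε * (dx j (φ i) q * (m j q k l * z k * z l)) =
          -((if k = l then ε * (dx j (φ i) q * (cl k * E (U q) 0 j.succ + cn k * E (U q) 1 j.succ) *
            (z k / s k) ^ 2) else 0) + ε * dx j (φ i) q * (M 0 k l * E (U q) 2 j.succ +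
            M 1 k l * E (U q) 3 j.succ) * (z k / s k) * (z l / s l)) := fun j l => by
        have := (s0 k).ne'
        have := (s0 l).ne'
        simp only [m]
        split_ifs with hl
        · subst hl
          field_simp
          ring
        · field_simp
          ring
      have e2 : ∑ l, (ε * fderiv ℝ (φ i) q (fr (U q) 2) * M 0 k l +
          ε * fderiv ℝ (φ i) q (fr (U q) 3) * M 1 k l) * (z k / s k) * (z l / s l) =
          ∑ l, ∑ j : Fin 3, ε * dx j (φ i) q * (M 0 k l * E (U q) 2 j.succ +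
            M 1 k l * E (U q) 3 j.succ) * (z k / s k) * (z l / s l) :=
        Finset.sum_congr rfl fun l _ => by
          simp [fd_fr, E, Fin.sum_univ_three]
          ring
      have e3 : ‖z k‖ ^ 2 = (cl k + cn k) * (z k / s k) ^ 2 := by
        have := (s0 k).ne'
        rw [← s2, Real.norm_eq_abs, sq_abs]
        field_simp
      simp only [e1, Finset.sum_neg_distrib, Finset.sum_add_distrib, Finset.sum_ite_eq,
        Finset.mem_univ, if_true]
      rw [e2, Finset.sum_comm, e3, fd_fr, fd_fr]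
      generalize (∑ l, ∑ j : Fin 3, ε * dx j (φ i) q * (M 0 k l * E (U q) 2 j.succ +
            M 1 k l * E (U q) 3 j.succ) * (z k / s k) * (z l / s l)) = S
      simp [E, Fin.sum_univ_three]
      ring
  · ext k
    simp [hY, h0 q hq h]

end Vale.Agent.P354C
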