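import Mathlib

/-!
Frame calculus in a commutative ring with four derivations: torsion, curvature, Bianchi identities.
-/

namespace Vale.Agent.P354C

/-- A frame of derivations e of the ring A with structure functions c. -/
structure Fr (A : Type) [CommRing A] where
  e : Fin 4 → A →+ A
  mul : ∀ x f g, e x (f * g) = e x f * g + f * e x g
  c : Fin 4 → Fin 4 → Fin 4 → A
  comm : ∀ x y f, e x (e y f) - e y (e x f) = ∑ m, c x y m * e m f
  anti : ∀ x y m, c y x m = -c x y m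
  diag : ∀ x m, c x x m = 0
  jac : ∀ x y z m, e x (c y z m) + e y (c z x m) + e z (c x y m) =
    ∑ n, (c x y n * c n z m + c y z n * c n x m + c z x n * c n y m)

variable {A : Type} [CommRing A] (F : Fr A)

namespace Fr

theorem one (x : Fin 4) : F.e x 1 = 0 := by
  have := F.mul x 1 1
  simpa using this

theorem two (x : Fin 4) (f : A) : F.e x (2 * f) = 2 * F.e x f := by
  rw [two_mul, map_add, two_mul]

theorem int (x : Fin 4) (n : ℤ) (f : A) : F.e x ((n : A) * f) = (n : A) * F.e x f := by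
  rw [← zsmul_eq_mul, map_zsmul, zsmul_eq_mul]

variable (Γ : Fin 4 → Fin 4 → Fin 4 → A)

/-- Torsion. -/
def T (x y m : Fin 4) : A := Γ x m y - Γ y m x - F.c x y m

/-- Curvature. -/
def R (j k x y : Fin 4) : A :=
  F.e x (Γ y j k) - F.e y (Γ x j k) +
    ∑ m, (Γ x j m * Γ y m k - Γ y j m * Γ x m k - F.c x y m * Γ m j k)

theorem bianchi1 (x y z j : Fin 4) :
    F.e x (F.T Γ y z j) + F.e y (F.T Γ z x j) + F.e z (F.T Γ x y j) =
      F.R Γ j z x y + F.R Γ j x y z + F.R Γ j y z x +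
      ∑ m, (F.c x y m * F.T Γ m z j + F.c y z m * F.T Γ m x j + F.c z x m * F.T Γ m y j -
        Γ x j m * F.T Γ y z m - Γ y j m * F.T Γ z x m - Γ z j m * F.T Γ x y m) := by
  have h := F.jac x y z j
  simp only [T, R, map_sub, Fin.sum_univ_four] at h ⊢
  linear_combination -h

set_option maxHeartbeats 2000000 in
theorem bianchi2 (x y z j k : Fin 4) :
    F.e x (F.R Γ j k y z) + F.e y (F.R Γ j k z x) + F.e z (F.R Γ j k x y) =
      ∑ m, (F.c x y m * F.R Γ j k m z + F.c y z m * F.R Γ j k m x + F.c z x m * F.R Γ j k m y -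
        (Γ x j m * F.R Γ m k y z - F.R Γ j m y z * Γ x m k) -
        (Γ y j m * F.R Γ m k z x - F.R Γ j m z x * Γ y m k) -
        (Γ z j m * F.R Γ m k x y - F.R Γ j m x y * Γ z m k)) := by
  have h0 := F.jac x y z 0
  have h1 := F.jac x y z 1
  have h2 := F.jac x y z 2
  have h3 := F.jac x y z 3
  have a := F.comm x y (Γ z j k)
  have b := F.comm y z (Γ x j k)
  have c := F.comm z x (Γ y j k)
  simp only [R, map_sub, map_add, F.mul, Fin.sum_univ_four] at h0 h1 h2 h3 a b c ⊢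
  linear_combination a + b + c - Γ 0 j k * h0 - Γ 1 j k * h1 - Γ 2 j k * h2 - Γ 3 j k * h3

/-- The covariant derivative of a matrix. -/
def N (x : Fin 4) : (Fin 4 → Fin 4 → A) →+ (Fin 4 → Fin 4 → A) where
  toFun M j k := F.e x (M j k) + ∑ m, (Γ x j m * M m k - M j m * Γ x m k)
  map_zero' := by ext j k; simp
  map_add' M M' := by
    ext j k
    simp only [Pi.add_apply, map_add, Fin.sum_univ_four]
    ring

theorem N_ap (x : Fin 4) (M : Fin 4 → Fin 4 → A) (j k : Fin 4) :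
    F.N Γ x M j k = F.e x (M j k) + ∑ m, (Γ x j m * M m k - M j m * Γ x m k) := rfl

theorem N_smul (x : Fin 4) (a : A) (M : Fin 4 → Fin 4 → A) :
    F.N Γ x (a • M) = F.e x a • M + a • F.N Γ x M := by
  ext j k
  simp only [N_ap, Pi.add_apply, Pi.smul_apply, smul_eq_mul, F.mul, Fin.sum_univ_four]
  ring

theorem ricci (x y : Fin 4) (M : Fin 4 → Fin 4 → A) (j k : Fin 4) :
    (F.N Γ x (F.N Γ y M) - F.N Γ y (F.N Γ x M) - ∑ m, F.c x y m • F.N Γ m M) j k =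
      ∑ m, (F.R Γ j m x y * M m k - M j m * F.R Γ m k x y) := by
  have a := F.comm x y (M j k)
  simp only [N_ap, R, Pi.sub_apply, Pi.add_apply, Pi.smul_apply, smul_eq_mul, map_sub, map_add,
    F.mul, Fin.sum_univ_four] at *
  linear_combination a

end Fr

section dd
variable {M : Type} [AddCommGroup M] [Module A M] (N : Fin 4 → M →+ M)

/-- Exterior derivative of a 2-form, with the structure functions s. -/
def d2 (s : Fin 4 → Fin 4 → Fin 4 → A) (W : Fin 4 → Fin 4 → M) (x y z : Fin 4) : M :=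
  N x (W y z) + N y (W z x) + N z (W x y) -
    ∑ m, (s x y m • W m z + s y z m • W m x + s z x m • W m y)

/-- The commutator of two derivatives. -/
def Kc (x y : Fin 4) (w : M) : M := N x (N y w) - N y (N x w) - ∑ m, F.c x y m • N m w

/-- The cyclic sum of derivatives. -/
def cyc (t : Fin 4 → Fin 4 → A) (x y z : Fin 4) : A :=
  F.e x (t y z) + F.e y (t z x) + F.e z (t x y)

/-- d d W, for the exterior derivative written with the structure functions c + t. -/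
theorem dd (hN : ∀ x a w, N x (a • w) = F.e x a • w + a • N x w) (W : Fin 4 → Fin 4 → M)
    (ha : ∀ x y, W y x = -W x y) (h0 : ∀ x, W x x = 0) (t : Fin 4 → Fin 4 → Fin 4 → A)
    (ta : ∀ x y m, t y x m = -t x y m) :
    N 0 (d2 N (F.c + t) W 1 2 3) - N 1 (d2 N (F.c + t) W 0 2 3) + N 2 (d2 N (F.c + t) W 0 1 3) -
      N 3 (d2 N (F.c + t) W 0 1 2) =
    Kc F N 0 1 (W 2 3) - Kc F N 0 2 (W 1 3) + Kc F N 0 3 (W 1 2) + Kc F N 1 2 (W 0 3) -
      Kc F N 1 3 (W 0 2) + Kc F N 2 3 (W 0 1) +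
    ∑ m, (F.c 0 1 m • d2 N F.c W m 2 3 - F.c 0 2 m • d2 N F.c W m 1 3 +
      F.c 0 3 m • d2 N F.c W m 1 2 + F.c 1 2 m • d2 N F.c W m 0 3 -
      F.c 1 3 m • d2 N F.c W m 0 2 + F.c 2 3 m • d2 N F.c W m 0 1) +
    ∑ m, (cyc F (fun x y => t x y m) 1 2 3 • W m 0 - cyc F (fun x y => t x y m) 0 2 3 • W m 1 +
      cyc F (fun x y => t x y m) 0 1 3 • W m 2 - cyc F (fun x y => t x y m) 0 1 2 • W m 3) -
    ∑ m, (t 0 1 m • (N 2 (W m 3) - N 3 (W m 2)) - t 0 2 m • (N 1 (W m 3) - N 3 (W m 1)) +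
      t 0 3 m • (N 1 (W m 2) - N 2 (W m 1)) + t 1 2 m • (N 0 (W m 3) - N 3 (W m 0)) -
      t 1 3 m • (N 0 (W m 2) - N 2 (W m 0)) + t 2 3 m • (N 0 (W m 1) - N 1 (W m 0))) := by
  have j1 := F.jac 1 2 3
  have j2 := F.jac 0 2 3
  have j3 := F.jac 0 1 3
  have j4 := F.jac 0 1 2
  have k : ∑ m, ((F.e 1 (F.c 2 3 m) + F.e 2 (F.c 3 1 m) + F.e 3 (F.c 1 2 m)) • W m 0 -
      (F.e 0 (F.c 2 3 m) + F.e 2 (F.c 3 0 m) + F.e 3 (F.c 0 2 m)) • W m 1 +
      (F.e 0 (F.c 1 3 m) + F.e 1 (F.c 3 0 m) + F.e 3 (F.c 0 1 m)) • W m 2 -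
      (F.e 0 (F.c 1 2 m) + F.e 1 (F.c 2 0 m) + F.e 2 (F.c 0 1 m)) • W m 3) =
      ∑ m, ((∑ n, (F.c 1 2 n * F.c n 3 m + F.c 2 3 n * F.c n 1 m + F.c 3 1 n * F.c n 2 m)) • W m 0 -
      (∑ n, (F.c 0 2 n * F.c n 3 m + F.c 2 3 n * F.c n 0 m + F.c 3 0 n * F.c n 2 m)) • W m 1 +
      (∑ n, (F.c 0 1 n * F.c n 3 m + F.c 1 3 n * F.c n 0 m + F.c 3 0 n * F.c n 1 m)) • W m 2 -
      (∑ n, (F.c 0 1 n * F.c n 2 m + F.c 1 2 n * F.c n 0 m + F.c 2 0 n * F.c n 1 m)) • W m 3) := by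
    simp only [j1, j2, j3, j4]
  simp only [d2, Kc, cyc, Pi.add_apply, Fin.sum_univ_four, map_add, map_sub, map_neg, map_zero, hN,
    h0, F.diag, ha 0 1, ha 0 2, ha 0 3, ha 1 2, ha 1 3, ha 2 3, F.anti 0 1, F.anti 0 2, F.anti 0 3,
    F.anti 1 2, F.anti 1 3, F.anti 2 3, ta 0 2, ta 0 3, ta 1 3] at k ⊢
  linear_combination (norm := module) k

end dd

end Vale.Agent.P354C
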