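import Vale.Agent.P354C.Sys

/-!
The coframe; ring homomorphisms commute with the structure equations.
-/

open scoped ContDiff
open Set Filter Topology

namespace Vale.Agent.P354C

open Vale.Agent.P354n (R4)
open Ix

section alg
variable {A B : Type} [CommRing A] [CommRing B] (U : Ix → A) (h δ : A)

/-- The coframe; h is 1/2 and δ is the inverse of the determinant of P. -/
def thA : Fin 4 → Fin 4 → A :=
  ![![h, h, 0, 0], ![h, -h, 0, 0],
    ![-(h * δ * (U P22 * U b1 - U P21 * U b2)), -(h * δ * (U P22 * U b1 - U P21 * U b2)),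
      δ * U P22, -(δ * U P21)],
    ![-(h * δ * (U P11 * U b2 - U P12 * U b1)), -(h * δ * (U P11 * U b2 - U P12 * U b1)),
      -(δ * U P12), δ * U P11]]

variable {h δ} (hh : 2 * h = 1) (hδ : δ * detP U = 1)
include hh hδ

theorem thA_E (m x : Fin 4) : ∑ μ, thA U h δ m μ * E U x μ = if m = x then 1 else 0 := by
  unfold detP at hδ
  fin_cases m <;> fin_cases x <;>
    simp only [thA, E, Fin.sum_univ_four, Matrix.cons_val, Matrix.cons_val_zero, Matrix.cons_val_one,
      Fin.isValue, Fin.zero_eta, Fin.mk_one, Fin.reduceFinMk, Fin.reduceEq, if_true, if_false] <;>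
    first
    | ring1
    | linear_combination hh
    | linear_combination hδ
    | linear_combination -(δ * (U P22 * U b1 - U P21 * U b2)) * hh
    | linear_combination -(δ * (U P11 * U b2 - U P12 * U b1)) * hh

theorem E_thA (μ ν : Fin 4) : ∑ m, thA U h δ m μ * E U m ν = if μ = ν then 1 else 0 := by
  unfold detP at hδ
  fin_cases μ <;> fin_cases ν <;>
    simp only [thA, E, Fin.sum_univ_four, Matrix.cons_val, Matrix.cons_val_zero, Matrix.cons_val_one,
      Fin.isValue, Fin.zero_eta, Fin.mk_one, Fin.reduceFinMk, Fin.reduceEq, if_true, if_false] <;>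
    first
    | ring1
    | linear_combination hh
    | linear_combination hδ
    | linear_combination -(h * U b1) * hδ
    | linear_combination -(h * U b2) * hδ

omit hh hδ

theorem edE (F : Fr A) (x y μ : Fin 4) : dEof (F.dd U) x y μ = F.e x (E U y μ) := by
  fin_cases y <;> fin_cases μ <;> simp [dEof, E, Fr.dd, F.one]

variable (π : A →+* B) (dU : Fin 4 → Ix → A)

theorem map_E (x μ : Fin 4) : π (E U x μ) = E (fun i => π (U i)) x μ := by
  fin_cases x <;> fin_cases μ <;> simp [E]

theorem map_dE (x y μ : Fin 4) : π (dEof dU x y μ) = dEof (fun x i => π (dU x i)) x y μ := by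
  fin_cases y <;> fin_cases μ <;> simp [dEof]

theorem map_Gam (x j k : Fin 4) : π (Gam U x j k) = Gam (fun i => π (U i)) x j k := by
  fin_cases x <;> fin_cases j <;> fin_cases k <;> simp [Gam, map_ofNat]

set_option maxHeartbeats 1000000 in
theorem map_Wy (j k x y : Fin 4) : π (Wy U j k x y) = Wy (fun i => π (U i)) j k x y := by
  fin_cases x <;> fin_cases y <;> fin_cases j <;> fin_cases k <;> simp [Wy, asym, map_ofNat]

theorem map_sg (x : Fin 4) : π (sg U x) = sg (fun i => π (U i)) x := by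
  fin_cases x <;> simp [sg]

theorem map_torC (x y μ : Fin 4) : π (torC U (dEof dU) x y μ) =
    torC (fun i => π (U i)) (dEof fun x i => π (dU x i)) x y μ := by
  simp only [torC, map_sub, map_sum, map_mul, map_Gam, map_E, map_dE]

theorem map_curD (j k x y : Fin 4) : π (curD U dU j k x y) =
    curD (fun i => π (U i)) (fun x i => π (dU x i)) j k x y := by
  simp only [curD, map_sub, map_add, map_sum, map_mul, map_Gam, map_Wy]

theorem map_resN (i : Ix) : π (resN U dU i) = resN (fun i => π (U i)) (fun x i => π (dU x i)) i := by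
  simp [resN, angS, linS, quadS, map_list_sum, Function.comp_def]

theorem map_resL (i : Ix) : π (resL U dU i) = resL (fun i => π (U i)) (fun x i => π (dU x i)) i := by
  simp [resL, angS, linS, quadS, map_list_sum, Function.comp_def]

theorem form_zero {D : Fin 4 → Fin 4 → B} (ha : ∀ x y, D y x = -D x y) (hd : ∀ x, D x x = 0)
    (ht : (∀ y, D 0 y = 0) ∨ ∀ y, D 1 y = 0)
    (hc : ∀ s t : Fin 3, ∑ x, ∑ y, tang s x * tang t y * D x y = 0) (x y : Fin 4) : D x y = 0 := by
  have a := hc 0 1
  have b := hc 0 2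
  have c := hc 1 2
  simp [tang, Fin.sum_univ_four] at a b c
  have k : D 0 1 = 0 ∧ D 0 2 = 0 ∧ D 0 3 = 0 ∧ D 1 2 = 0 ∧ D 1 3 = 0 := by
    rcases ht with ht | ht
    · exact ⟨ht 1, ht 2, ht 3, by linear_combination ht 2 - a, by linear_combination ht 3 - b⟩
    · exact ⟨by linear_combination ha 1 0 - ht 0, by linear_combination ht 2 + a,
        by linear_combination ht 3 + b, ht 2, ht 3⟩
  obtain ⟨k1, k2, k3, k4, k5⟩ := k
  fin_cases x <;> fin_cases y <;>
    simp [hd, ha 0 1, ha 0 2, ha 0 3, ha 1 2, ha 1 3, ha 2 3, k1, k2, k3, k4, k5, c]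

theorem tor_res :
    (torC U (dEof dU) 1 0 2 = -resN U dU b1 ∧ torC U (dEof dU) 1 0 3 = -resN U dU b2) ∧
    (torC U (dEof dU) 1 2 2 = -resN U dU P11 ∧ torC U (dEof dU) 1 2 3 = -resN U dU P12) ∧
    (torC U (dEof dU) 1 3 2 = -resN U dU P21 ∧ torC U (dEof dU) 1 3 3 = -resN U dU P22) := by
  refine ⟨⟨?_, ?_⟩, ⟨?_, ?_⟩, ⟨?_, ?_⟩⟩ <;>
    simp [resN, cN, angN, linN, quadN, angS, linS, quadS, torC, dEof, E, Gam, Fin.sum_univ_four] <;>
    ring

theorem tor_01 (y : Fin 4) : torC U (dEof dU) 1 y 0 + torC U (dEof dU) 1 y 1 = 0 ∧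
    torC U (dEof dU) 0 y 0 - torC U (dEof dU) 0 y 1 = 0 := by
  fin_cases y <;> simp [torC, dEof, E, Gam, Fin.sum_univ_four]

theorem tor_diag (x μ : Fin 4) : torC U (dEof dU) x x μ = 0 := by simp [torC]

end alg

end Vale.Agent.P354C
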