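import Vale.Agent.P354C.Conc
import Vale.Agent.P354C.FU

/-!
Propagation of the constraints.
-/

open scoped ContDiff
open Set Filter Topology

namespace Vale.Agent.P354C

open Vale.Agent.P354n (R4)
open Ix

theorem kap_pos (lam nu m1 m2 : ℝ) (h0 : 0 ≤ lam) (h1 : 0 ≤ nu) (h : m1 ^ 2 + m2 ^ 2 ≤ lam * nu)
    (z : Kap → ℝ) : 0 ≤ ∑ k, (((kl k : ℝ) * lam + (kn k : ℝ) * nu) * z k ^ 2 +
      ∑ j, (m1 * (MK 0 k j : ℝ) + m2 * (MK 1 k j : ℝ)) * z k * z j) := by
  have p0 : ∀ k, 0 ≤ ((kl k : ℝ) * lam + (kn k : ℝ) * nu) * z k ^ 2 := fun k => by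
    have a : 0 ≤ kl k ∧ 0 ≤ kn k := by
      rcases k with t | t | t | t <;> simp only [kl, kn] <;> constructor <;>
        first | (split_ifs <;> norm_num) | norm_num
    have b : (0 : ℝ) ≤ kl k := by exact_mod_cast a.1
    have c : (0 : ℝ) ≤ kn k := by exact_mod_cast a.2
    positivity
  simp only [Fintype.sum_sum_type (α₁ := Fin 4 × Fin 4 × Fin 4),
    Fintype.sum_sum_type (α₁ := Fin 7 × Fin 4 × Fin 4), Fintype.sum_sum_type (α₁ := Fin 4), MK,
    Int.cast_zero, mul_zero, add_zero, zero_mul, Finset.sum_const_zero, zero_add]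
  refine add_nonneg (Finset.sum_nonneg fun _ _ => p0 _) (add_nonneg
    (Finset.sum_nonneg fun _ _ => p0 _) (add_nonneg (Finset.sum_nonneg fun _ _ => p0 _) ?_))
  set y : Fin 6 → ℝ := fun i => z (.inr (.inr (.inr i))) with hy
  have a := pair_pos (x1 := y 0) (x2 := y 1) (y1 := y 2) (y2 := y 3) h0 h1 h
    (t := m1 * (-(y 0 * y 2) - y 1 * y 3) + m2 * (y 0 * y 3 - y 1 * y 2))
    (by nlinarith [sq_nonneg (m2 * (-(y 0 * y 2) - y 1 * y 3) - m1 * (y 0 * y 3 - y 1 * y 2))])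
  have b := pair_pos (x1 := y 2) (x2 := y 3) (y1 := y 4) (y2 := y 5) h0 h1 h
    (t := m1 * (y 2 * y 4 - y 3 * y 5) + m2 * (y 2 * y 5 + y 3 * y 4))
    (by nlinarith [sq_nonneg (m2 * (y 2 * y 4 - y 3 * y 5) - m1 * (y 2 * y 5 + y 3 * y 4))])
  have c : 0 ≤ lam * (y 0 ^ 2 + y 1 ^ 2) + nu * (y 4 ^ 2 + y 5 ^ 2) := by positivity
  simp [Fin.sum_univ_six, kl, kn, M6]
  simp only [hy] at a b c
  linarith

theorem LZ_mem {A : Type} [CommRing A] {F : Fr A} {U : Ix → A} (R : Red F U) {h : A}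
    (hh : 2 * h = 1) (k : Kap) : ∃ a : Kap → A, LZ F U k = ∑ j, a j * Zd F U j := by
  have h := R.sub (π := Ideal.Quotient.mk (Ideal.span (range (Zd F U)))) (fun b hb => by
      have := congrArg (Ideal.Quotient.mk (Ideal.span (range (Zd F U)))) hh
      rw [map_mul, map_ofNat, map_one] at this
      rw [← one_mul b, ← this, mul_comm 2, mul_assoc, hb, mul_zero])
    (fun k => Ideal.Quotient.eq_zero_iff_mem.2 (Ideal.subset_span (mem_range_self k))) k
  obtain ⟨a, ha⟩ := Ideal.mem_span_range_iff_exists_fun.1 (Ideal.Quotient.eq_zero_iff_mem.1 h)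
  exact ⟨a, ha.symm⟩

theorem tang_zero {f : R4 → ℝ} {p v : R4} {G : Set R4} (hG : G ∈ 𝓝 p) (hf : DifferentiableAt ℝ f p)
    (hv : v.1 = 0) (h : ∀ q ∈ G, q.1 = p.1 → f q = 0) : fderiv ℝ f p v = 0 := by
  have h1 : HasDerivAt (fun t : ℝ => p + t • v) v 0 := by
    simpa using ((hasDerivAt_id (0 : ℝ)).smul_const v).const_add p
  have h2 : HasDerivAt (fun t : ℝ => f (p + t • v)) (fderiv ℝ f p v) 0 :=
    HasFDerivAt.comp_hasDerivAt_of_eq (0 : ℝ) hf.hasFDerivAt h1 (by simp)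
  have h3 : (fun t : ℝ => f (p + t • v)) =ᶠ[𝓝 0] fun _ => 0 := by
    have : ∀ᶠ t : ℝ in 𝓝 0, p + t • v ∈ G :=
      h1.continuousAt.preimage_mem_nhds (by simpa using hG)
    exact this.mono fun t ht => h _ ht (by simp [hv])
  exact h2.unique ((hasDerivAt_const (0 : ℝ) (0 : ℝ)).congr_of_eventuallyEq h3)

section
variable {Ω : Set R4} (hΩ : IsOpen Ω) {U : R4 → Ix → ℝ} (hU : SmU U Ω)
  (hP : ∀ p ∈ Ω, detP (U p) ≠ 0) (R : Red (FA hΩ hU hP) (UA hU))
include R

theorem slice_alg {p : Ω} (hc : Constr (U p) (dfr U p)) :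
    (∀ x y m, ev p ((FA hΩ hU hP).T (Gam (UA hU)) x y m) = 0) ∧
    (∀ j k x y, ev p (curD (UA hU) ((FA hΩ hU hP).dd (UA hU)) j k x y) = 0) ∧
    ∀ x, ev p (SO (FA hΩ hU hP) (UA hU) x) = 0 := by
  refine ⟨fun x y m => ?_, fun j k x y => cur_all (fun b h => by linarith) (fun i => ?_) j k,
    fun x => ?_⟩
  · refine form_zero (D := fun x y => ev p ((FA hΩ hU hP).T (Gam (UA hU)) x y m))
      (fun x y => by rw [T_anti, map_neg]) (fun x => by simp [Fr.T, Fr.diag]) ?_ (fun s t => ?_) x y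
    · by_cases hm : m = 1
      · exact Or.inl fun y => by rw [hm, R.tl, map_zero]
      · exact Or.inr fun y => by rw [R.tn _ _ hm, map_zero]
    · have h0 := hc.tor s t 0
      have h1 := hc.tor s t 1
      have h2 := hc.tor s t 2
      have h3 := hc.tor s t 3
      simp only [T_tor, map_sum, map_mul, map_torC, ev_UA, ev_dd]
      simp only [Fin.sum_univ_four] at h0 h1 h2 h3 ⊢
      linear_combination ev p (thA (UA hU) hA (dA hU hP) m 0) * h0 +
        ev p (thA (UA hU) hA (dA hU hP) m 1) * h1 + ev p (thA (UA hU) hA (dA hU hP) m 2) * h2 +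
        ev p (thA (UA hU) hA (dA hU hP) m 3) * h3
  · refine form_zero (D := fun x y =>
      ev p (curD (UA hU) ((FA hΩ hU hP).dd (UA hU)) (jk i).1 (jk i).2 x y))
      (fun x y => by rw [cur_anti, map_neg]) (fun x => by rw [cur_diag, map_zero]) ?_
      (fun s t => ?_) x y
    · refine ((by decide : ∀ i, tp i = 0 ∨ tp i = 1) i).imp (fun h y => ?_) fun h y => ?_ <;>
        rw [← h, R.cur, map_zero]
    · simp only [map_curD, ev_UA, ev_dd]
      exact hc.cur s t _ _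
  · have e : ∀ x, ev p (SO (FA hΩ hU hP) (UA hU) x) = dfr U p x O - U p O * sg (U p) x := fun x => by
      rw [SO, map_sub, map_mul, map_sg, ev_UA]
      exact congrArg₂ _ (congrFun (congrFun (ev_dd hΩ hU hP p) x) O) rfl
    have h1 : ev p (SO (FA hΩ hU hP) (UA hU) 1) = 0 := by rw [R.SO, map_zero]
    have a := hc.dO 0
    have b := hc.dO 1
    have c := hc.dO 2
    simp only [← e] at a b c
    simp [tang, Fin.sum_univ_four, h1] at a b c
    fin_cases x
    exacts [a, h1, b, c]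

theorem slice_Z {p : Ω} {G : Set R4} (hG : G ∈ 𝓝 (p : R4))
    (hc : ∀ q ∈ G, q.1 = p.1.1 → q ∈ Ω ∧ Constr (U q) (dfr U q)) (k : Kap) :
    ev p (Zd (FA hΩ hU hP) (UA hU) k) = 0 := by
  obtain ⟨hT, hC, hS⟩ := slice_alg hΩ hU hP R (hc p (mem_of_mem_nhds hG) rfl).2
  rcases k with t | t | t | t
  · exact hT _ _ _
  · exact hC _ _ _ _
  · exact hS _
  have tz : ∀ j k x y (v : R4), v.1 = 0 →
      fderiv ℝ (rep (curD (UA hU) ((FA hΩ hU hP).dd (UA hU)) j k x y)) p v = 0 :=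
    fun j k x y v hv => tang_zero hG (da hΩ (rep_sm _) p) hv fun q hq h =>
      (rep_ev _ ⟨q, (hc q hq h).1⟩).trans
        ((slice_alg hΩ hU hP R (p := ⟨q, (hc q hq h).1⟩) (hc q hq h).2).2.1 j k x y)
  have key : ∀ j k, ev p (Bf (UA hU) ((FA hΩ hU hP).dd (UA hU)) j k 0 2 3) =
      ev p (Bf (UA hU) ((FA hΩ hU hP).dd (UA hU)) j k 1 2 3) := fun j k => by
    have a := sub_cur hT hC j k 0 2 3
    have b := sub_cur hT hC j k 1 2 3
    have c := tz j k 2 3 (fr (U p) 0 - fr (U p) 1) (by simp [fr, vec, E])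
    simp only [cyc, map_add, ev_e, tz j k _ _ (fr (U p) 2) (by simp [fr, vec, E]),
      tz j k _ _ (fr (U p) 3) (by simp [fr, vec, E]), add_zero] at a b
    rw [map_sub] at c
    linear_combination a - b - c
  have e : ∀ i, ev p (resN (UA hU) ((FA hΩ hU hP).dd (UA hU)) i) =
      -ev p (resL (UA hU) ((FA hΩ hU hP).dd (UA hU)) i) := fun i => by
    rw [eq_neg_iff_add_eq_zero, ← map_add]
    exact (congrArg (ev p) (R.res i)).trans (map_zero _)
  simp only [Bf_0, Bf_1] at key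
  have k1 := key 1 3
  have k2 := key 1 2
  have k3 := key 3 2
  have k4 := key 0 0
  have k5 := key 0 3
  have k6 := key 0 2
  simp [BT, e, map_ofNat] at k1 k2 k3 k4 k5 k6
  fin_cases t <;> simp only [Zd, mid, Matrix.cons_val, Fin.zero_eta, Fin.mk_one, Fin.reduceFinMk] <;>
    linarith

end

/-- **Propagation of the constraints.** -/
theorem propag : PROPAG := by
  intro U ι _ φ Ω D ε t0 T hε hΩ hD hDΩ hU hS hφ H h0 p hp h
  have hP : ∀ p ∈ Ω, detP (U p) ≠ 0 := fun p hp => (hS p hp).1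
  have R := red hΩ hU hP fun p hp => (hS p hp).2
  choose a ha using LZ_mem R hA_two
  obtain ⟨K, hK⟩ : ∃ K, ∀ q ∈ D, ∀ k j, |rep (a k j) q| ≤ K := by
    have c : ContinuousOn (fun q => ∑ k, ∑ j, |rep (a k j) q|) D :=
      continuousOn_finsetSum _ fun k _ => continuousOn_finsetSum _ fun j _ =>
        ((rep_sm _).continuousOn.mono hDΩ).abs
    obtain ⟨K, hK⟩ := hD.bddAbove_image c
    refine ⟨K, fun q hq k j => le_trans ?_ (hK ⟨q, hq, rfl⟩)⟩
    exact (Finset.single_le_sum (f := fun j => |rep (a k j) q|) (fun _ _ => abs_nonneg _)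
      (Finset.mem_univ j)).trans (Finset.single_le_sum (f := fun k => ∑ j, |rep (a k j) q|)
        (fun _ _ => Finset.sum_nonneg fun _ _ => abs_nonneg _) (Finset.mem_univ k))
  have hT : 0 ≤ T := hp.1.trans hp.2
  have key := frame_uniq (fun k => (kl k : ℝ)) (fun k => (kn k : ℝ)) (fun a k j => (MK a k j : ℝ))
    (fun k => ?_) (fun a k j => ?_) kap_pos (U := U)
    (Z := fun q k => rep (Zd (FA hΩ hU hP) (UA hU) k) q) (K := K) hε hΩ hD hDΩ hU
    (fun k => rep_sm _) hφ (fun q hq h => ⟨(H q hq h).1, (H q hq h).2, fun k => ?_⟩)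
    (fun q hq h => ?_) p hp h
  · have m := hDΩ (H p hp h).1
    exact Ker.full hΩ hU hP (p := ⟨p, m⟩) (R.ker (fun b h => by linarith) fun k =>
      (rep_ev _ ⟨p, m⟩).symm.trans (congrFun key k))
  · rcases k with t | t | t | t <;> simp only [kl, kn] <;> first | (split_ifs <;> norm_num) | norm_num
  · rcases k with t | t | t | t <;> rcases j with s | s | s | s <;> simp only [MK]
    exact congrArg _ ((by decide : ∀ a t s, M6 a t s = M6 a s t) a t s)
  · have m := hDΩ (H q hq h).1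
    have e := congrArg (ev ⟨q, m⟩) (ha k)
    simp only [LZ, map_add, map_mul, map_sum, map_intCast, ev_e] at e
    simp only [← rep_ev] at e
    rw [e, Finset.mul_sum]
    refine (Finset.abs_sum_le_sum_abs _ _).trans (Finset.sum_le_sum fun j _ => ?_)
    rw [abs_mul]
    exact mul_le_mul_of_nonneg_right (hK q (H q hq h).1 k j) (abs_nonneg _)
  · have hz : ∀ r : R4, r.1 = t0 → ε * (r.1 - t0) ∈ Icc 0 T := fun r hr => by simp [hr, hT]
    have m := hDΩ (H q (hz q hq) h).1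
    funext k
    refine (rep_ev _ ⟨q, m⟩).trans (slice_Z hΩ hU hP R (G := {r | ∀ i, φ i r < 0}) ?_
      (fun r hr e => ⟨hDΩ (H r (hz r (e.trans hq)) hr).1, h0 r (e.trans hq) hr⟩) k)
    exact eventually_all.2 fun i => (hφ i).continuous.continuousAt.eventually_lt
      continuousAt_const (h i)

end Vale.Agent.P354C
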