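import Vale.Agent.P354C.Defs

/-!
The tables of the system are components of the structure equations.
-/

set_option linter.unusedSimpArgs false

namespace Vale.Agent.P354C

open Ix

variable {A : Type} [CommRing A] (U : Ix → A) (dU : Fin 4 → Ix → A)

/-- The brackets of the frame written by the connection. -/
def cf (x y m : Fin 4) : A := Gam U x m y - Gam U y m x

/-- The cyclic sum of the covariant derivatives of the Weyl field. -/
def Bf (j k x y z : Fin 4) : A :=
  Wy (dU x) j k y z + Wy (dU y) j k z x + Wy (dU z) j k x y +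
    ∑ m, ((Gam U x j m * Wy U m k y z - Wy U j m y z * Gam U x m k) +
      (Gam U y j m * Wy U m k z x - Wy U j m z x * Gam U y m k) +
      (Gam U z j m * Wy U m k x y - Wy U j m x y * Gam U z m k) -
      (cf U x y m * Wy U j k m z + cf U y z m * Wy U j k m x + cf U z x m * Wy U j k m y))

/-- The components of Bf on the triple without t, from the left sides rN, rL of the equations. -/
def BT (rN rL : Ix → A) : Fin 4 → Fin 4 → Fin 4 → A :=
  ![![![2 * rN sig, 0, rN bb2, -rN bb1],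
      ![0, -(2 * rN sig), -rN be2, rN be1],
      ![-(2 * rN be2), 2 * rN bb2, 0, -(2 * rN rho)],
      ![2 * rN be1, -(2 * rN bb1), 2 * rN rho, 0]],
    ![![2 * rL sig, 0, rL bb2, -rL bb1],
      ![0, -(2 * rL sig), -rL be2, rL be1],
      ![-(2 * rL be2), 2 * rL bb2, 0, -(2 * rL rho)],
      ![2 * rL be1, -(2 * rL bb1), 2 * rL rho, 0]],
    ![![-(2 * rN be2) + 2 * rL bb2, 0, -rN sig - rL ab2, -rN rho + rL ab1],
      ![0, 2 * rN be2 - 2 * rL bb2, rN a2 - rL sig, -rN a1 + rL rho],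
      ![2 * rN a2 - 2 * rL sig, -(2 * rN sig) - 2 * rL ab2, 0, 2 * rN be1 + 2 * rL bb1],
      ![-(2 * rN a1) + 2 * rL rho, -(2 * rN rho) + 2 * rL ab1, -(2 * rN be1) - 2 * rL bb1, 0]],
    ![![-(2 * rN be1) + 2 * rL bb1, 0, -rN rho - rL ab1, rN sig - rL ab2],
      ![0, 2 * rN be1 - 2 * rL bb1, rN a1 + rL rho, rN a2 + rL sig],
      ![2 * rN a1 + 2 * rL rho, -(2 * rN rho) - 2 * rL ab1, 0, -(2 * rN be2) - 2 * rL bb2],
      ![2 * rN a2 + 2 * rL sig, 2 * rN sig - 2 * rL ab2, 2 * rN be2 + 2 * rL bb2, 0]]]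

set_option maxHeartbeats 2000000 in
theorem Bf_0 (j k : Fin 4) : Bf U dU j k 1 2 3 = BT (resN U dU) (resL U dU) 0 j k := by
  fin_cases j <;> fin_cases k <;>
    simp only [resN, resL, cN, cL, angN, angL, linN, linL, quadN, quadL, angS, linS, quadS, ai,
      List.map, List.sum_cons, List.sum_nil, Bf, BT, cf, curD, torC, dEof, E, Gam, Wy, asym, sg,
      Fin.sum_univ_four, Matrix.cons_val, Matrix.cons_val_zero, Matrix.cons_val_one,
      Int.cast_ofNat, Int.cast_neg, Int.cast_one, Int.cast_zero, Int.reduceNeg, Fin.isValue,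
      Fin.zero_eta, Fin.mk_one, Fin.reduceFinMk] <;> ring

set_option maxHeartbeats 2000000 in
theorem Bf_1 (j k : Fin 4) : Bf U dU j k 0 2 3 = BT (resN U dU) (resL U dU) 1 j k := by
  fin_cases j <;> fin_cases k <;>
    simp only [resN, resL, cN, cL, angN, angL, linN, linL, quadN, quadL, angS, linS, quadS, ai,
      List.map, List.sum_cons, List.sum_nil, Bf, BT, cf, curD, torC, dEof, E, Gam, Wy, asym, sg,
      Fin.sum_univ_four, Matrix.cons_val, Matrix.cons_val_zero, Matrix.cons_val_one,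
      Int.cast_ofNat, Int.cast_neg, Int.cast_one, Int.cast_zero, Int.reduceNeg, Fin.isValue,
      Fin.zero_eta, Fin.mk_one, Fin.reduceFinMk] <;> ring

set_option maxHeartbeats 2000000 in
theorem Bf_2 (j k : Fin 4) : Bf U dU j k 0 1 3 = BT (resN U dU) (resL U dU) 2 j k := by
  fin_cases j <;> fin_cases k <;>
    simp only [resN, resL, cN, cL, angN, angL, linN, linL, quadN, quadL, angS, linS, quadS, ai,
      List.map, List.sum_cons, List.sum_nil, Bf, BT, cf, curD, torC, dEof, E, Gam, Wy, asym, sg,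
      Fin.sum_univ_four, Matrix.cons_val, Matrix.cons_val_zero, Matrix.cons_val_one,
      Int.cast_ofNat, Int.cast_neg, Int.cast_one, Int.cast_zero, Int.reduceNeg, Fin.isValue,
      Fin.zero_eta, Fin.mk_one, Fin.reduceFinMk] <;> ring

set_option maxHeartbeats 2000000 in
theorem Bf_3 (j k : Fin 4) : Bf U dU j k 0 1 2 = BT (resN U dU) (resL U dU) 3 j k := by
  fin_cases j <;> fin_cases k <;>
    simp only [resN, resL, cN, cL, angN, angL, linN, linL, quadN, quadL, angS, linS, quadS, ai,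
      List.map, List.sum_cons, List.sum_nil, Bf, BT, cf, curD, torC, dEof, E, Gam, Wy, asym, sg,
      Fin.sum_univ_four, Matrix.cons_val, Matrix.cons_val_zero, Matrix.cons_val_one,
      Int.cast_ofNat, Int.cast_neg, Int.cast_one, Int.cast_zero, Int.reduceNeg, Fin.isValue,
      Fin.zero_eta, Fin.mk_one, Fin.reduceFinMk] <;> ring

set_option maxHeartbeats 2000000 in
/-- The transport equations of the connection are components of curD. -/
theorem cur_res :
    (curD U dU 0 0 1 0 = 2 * resN U dU om ∧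
      curD U dU 0 0 1 2 = 2 * resN U dU p1 ∧
      curD U dU 0 0 1 3 = 2 * resN U dU p2) ∧
    (curD U dU 3 2 1 0 = resN U dU r0 ∧
      curD U dU 3 2 1 2 = resN U dU r1 ∧
      curD U dU 3 2 1 3 = resN U dU r2) ∧
    (curD U dU 0 2 1 0 = resN U dU B1 ∧
      curD U dU 0 2 1 2 = resN U dU Y11 ∧
      curD U dU 0 2 1 3 = resN U dU Y12) ∧
    (curD U dU 0 3 1 0 = resN U dU B2 ∧
      curD U dU 0 3 1 2 = resN U dU Y21 ∧
      curD U dU 0 3 1 3 = resN U dU Y22) ∧
    (curD U dU 1 1 0 1 = 2 * resL U dU omb ∧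
      curD U dU 1 1 0 2 = 2 * resL U dU q1 ∧
      curD U dU 1 1 0 3 = 2 * resL U dU q2) ∧
    (curD U dU 1 2 0 1 = resL U dU A1 ∧
      curD U dU 1 2 0 2 = resL U dU X11 ∧
      curD U dU 1 2 0 3 = resL U dU X12) ∧
    (curD U dU 1 3 0 1 = resL U dU A2 ∧
      curD U dU 1 3 0 2 = resL U dU X21 ∧
      curD U dU 1 3 0 3 = resL U dU X22) := by
  refine ⟨⟨?_, ?_, ?_⟩, ⟨?_, ?_, ?_⟩, ⟨?_, ?_, ?_⟩, ⟨?_, ?_, ?_⟩, ⟨?_, ?_, ?_⟩, ⟨?_, ?_, ?_⟩,
    ⟨?_, ?_, ?_⟩⟩ <;>
    simp only [resN, resL, cN, cL, angN, angL, linN, linL, quadN, quadL, angS, linS, quadS, ai,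
      List.map, List.sum_cons, List.sum_nil, Bf, BT, cf, curD, torC, dEof, E, Gam, Wy, asym, sg,
      Fin.sum_univ_four, Matrix.cons_val, Matrix.cons_val_zero, Matrix.cons_val_one,
      Int.cast_ofNat, Int.cast_neg, Int.cast_one, Int.cast_zero, Int.reduceNeg, Fin.isValue,
      Fin.zero_eta, Fin.mk_one, Fin.reduceFinMk] <;> ring

set_option maxHeartbeats 2000000 in
/-- The components of curD are those of an element of co(1,3). -/
theorem cur_co (x y : Fin 4) :
    curD U dU 0 1 x y = 0 ∧ curD U dU 1 0 x y = 0 ∧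
    curD U dU 2 0 x y = 2 * curD U dU 1 2 x y ∧ curD U dU 3 0 x y = 2 * curD U dU 1 3 x y ∧
    curD U dU 2 1 x y = 2 * curD U dU 0 2 x y ∧ curD U dU 3 1 x y = 2 * curD U dU 0 3 x y ∧
    curD U dU 2 3 x y = -curD U dU 3 2 x y ∧
    2 * curD U dU 2 2 x y = curD U dU 0 0 x y + curD U dU 1 1 x y ∧
    curD U dU 3 3 x y = curD U dU 2 2 x y ∧
    curD U dU 2 2 x y = sg (dU x) y - sg (dU y) x - ∑ m, cf U x y m * sg U m := by
  have hs : ∀ (V : Ix → A) (i : Fin 4), sg V i =
      ![V om, 0, V p1, V p2] i + ![0, V omb, V q1, V q2] i := fun V i => by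
    fin_cases i <;> simp [sg]
  simp only [hs, curD, cf, Gam, Wy, Fin.sum_univ_four, Matrix.cons_val, Matrix.cons_val_zero,
    Matrix.cons_val_one, Fin.isValue]
  refine ⟨?_, ?_, ?_, ?_, ?_, ?_, ?_, ?_, ?_, ?_⟩ <;> ring

theorem asym_anti (a b c d e f : A) (x y : Fin 4) : asym a b c d e f y x = -asym a b c d e f x y := by
  fin_cases x <;> fin_cases y <;> simp [asym]

theorem asym_diag (a b c d e f : A) (x : Fin 4) : asym a b c d e f x x = 0 := by
  fin_cases x <;> simp [asym]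

theorem Wy_anti (j k x y : Fin 4) : Wy U j k y x = -Wy U j k x y := by
  fin_cases j <;> fin_cases k <;> simp [Wy, asym_anti _ _ _ _ _ _ x y]

theorem Wy_diag (j k x : Fin 4) : Wy U j k x x = 0 := by
  fin_cases j <;> fin_cases k <;> simp [Wy, asym_diag]

set_option maxHeartbeats 2000000 in
theorem Wy_cyc (j x y z : Fin 4) : Wy U j z x y + Wy U j x y z + Wy U j y z x = 0 := by
  fin_cases j <;> fin_cases x <;> fin_cases y <;> fin_cases z <;> simp [Wy, asym] <;> ring

theorem Wy_tr (k y : Fin 4) : ∑ i, Wy U i k i y = 0 := by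
  fin_cases k <;> fin_cases y <;> simp [Wy, asym, Fin.sum_univ_four] <;> ring

/-- The commutator of two values of the Weyl field. -/
def WW (x y z w j k : Fin 4) : A := ∑ m, (Wy U j m x y * Wy U m k z w - Wy U j m z w * Wy U m k x y)

set_option maxHeartbeats 2000000 in
theorem WW_zero (j k : Fin 4) : WW U 0 1 2 3 j k - WW U 0 2 1 3 j k + WW U 0 3 1 2 j k +
    WW U 1 2 0 3 j k - WW U 1 3 0 2 j k + WW U 2 3 0 1 j k = 0 := by
  simp only [WW, Fin.sum_univ_four]
  ring

theorem cur_anti (j k x y : Fin 4) : curD U dU j k y x = -curD U dU j k x y := by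
  simp only [curD, Wy_anti U j k x y, Fin.sum_univ_four]
  ring

theorem cur_diag (j k x : Fin 4) : curD U dU j k x x = 0 := by
  simp only [curD, Wy_diag, Fin.sum_univ_four]
  ring

theorem Bf_cyc (j k x y z : Fin 4) : Bf U dU j k y z x = Bf U dU j k x y z := by
  simp only [Bf, Fin.sum_univ_four]
  ring

theorem cf_anti (x y m : Fin 4) : cf U y x m = -cf U x y m := by
  simp only [cf]
  ring

set_option maxHeartbeats 2000000 in
theorem Bf_diag (j k x z : Fin 4) : Bf U dU j k x x z = 0 := by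
  simp only [Bf, Fin.sum_univ_four, Wy_diag, Wy_anti _ _ _ x z, cf_anti U x z]
  simp only [cf]
  ring

theorem Bf_swap (j k x y z : Fin 4) : Bf U dU j k y x z = -Bf U dU j k x y z := by
  simp only [Bf, Fin.sum_univ_four, Wy_anti _ _ _ x y, Wy_anti _ _ _ z x, Wy_anti _ _ _ y z,
    cf_anti U x y, cf_anti U z x, cf_anti U y z]
  ring

end Vale.Agent.P354C
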