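import Vale.Agent.P354C.Form
import Vale.Agent.P354C.Tab

/-!
The subsidiary system, modulo the kernel of a ring homomorphism which kills the defects.
-/

namespace Vale.Agent.P354C

open Ix

variable {A B : Type} [CommRing A] [CommRing B] (F : Fr A) (U : Ix → A)

/-- The derivatives of the unknowns along the frame. -/
def Fr.dd (x : Fin 4) (i : Ix) : A := F.e x (U i)

theorem eGam (x y j k : Fin 4) : Gam (F.dd U x) y j k = F.e x (Gam U y j k) := by
  fin_cases y <;> fin_cases j <;> fin_cases k <;> simp [Gam, Fr.dd, F.two]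

set_option maxHeartbeats 1000000 in
theorem eWy (x j k y z : Fin 4) : Wy (F.dd U x) j k y z = F.e x (Wy U j k y z) := by
  fin_cases y <;> fin_cases z <;> fin_cases j <;> fin_cases k <;> simp [Wy, asym, Fr.dd, F.two]

theorem esg (x y : Fin 4) : sg (F.dd U x) y = F.e x (sg U y) := by
  fin_cases y <;> simp [sg, Fr.dd]

theorem T_anti (x y m : Fin 4) : F.T (Gam U) y x m = -F.T (Gam U) x y m := by
  simp only [Fr.T, F.anti x y]
  ring

theorem cf_eq (x y m : Fin 4) : cf U x y m = F.c x y m + F.T (Gam U) x y m := by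
  simp only [Fr.T, cf]
  ring

theorem curD_eq (j k x y : Fin 4) : curD U (F.dd U) j k x y =
    F.R (Gam U) j k x y - ∑ m, F.T (Gam U) x y m * Gam U m j k - Wy U j k x y := by
  simp only [curD, Fr.R, Fr.T, eGam, Fin.sum_univ_four]
  ring

theorem Bf_eq (j k x y z : Fin 4) : Bf U (F.dd U) j k x y z =
    d2 (F.N (Gam U)) (F.c + F.T (Gam U)) (fun y z j k => Wy U j k y z) x y z j k := by
  simp only [Bf, d2, eWy, cf_eq F, Fr.N_ap, Pi.add_apply, Pi.sub_apply, Pi.smul_apply, smul_eq_mul,
    Fin.sum_univ_four]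
  ring

theorem d2_eq (j k x y z : Fin 4) :
    d2 (F.N (Gam U)) F.c (fun y z j k => Wy U j k y z) x y z j k = Bf U (F.dd U) j k x y z +
      ∑ m, (F.T (Gam U) x y m * Wy U j k m z + F.T (Gam U) y z m * Wy U j k m x +
        F.T (Gam U) z x m * Wy U j k m y) := by
  simp only [Bf_eq, d2, Pi.add_apply, Pi.sub_apply, Pi.smul_apply, smul_eq_mul, Fin.sum_univ_four]
  ring

/-- The defect of d O = O sg. -/
def SO (x : Fin 4) : A := F.e x (U O) - U O * sg U x

variable {F U} {π : A →+* B} (hT : ∀ x y m, π (F.T (Gam U) x y m) = 0)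
  (hC : ∀ j k x y, π (curD U (F.dd U) j k x y) = 0)
include hT hC

theorem ker_R (j k x y : Fin 4) : π (F.R (Gam U) j k x y) = π (Wy U j k x y) := by
  have := hC j k x y
  simp only [curD_eq, map_sub, map_sum, map_mul, hT, zero_mul, Finset.sum_const_zero] at this
  linear_combination this

theorem sub_T (x y z m : Fin 4) : π (cyc F (fun y z => F.T (Gam U) y z m) x y z) = 0 := by
  have h := congrArg π (Wy_cyc U m x y z)
  simp only [cyc, F.bianchi1, map_add, map_sub, map_sum, map_mul, hT, ker_R hT hC, mul_zero,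
    add_zero, sub_zero, Finset.sum_const_zero, map_zero] at h ⊢
  exact h

theorem sub_cur (j k x y z : Fin 4) :
    π (cyc F (curD U (F.dd U) j k) x y z) = -π (Bf U (F.dd U) j k x y z) := by
  have h := congrArg π (F.bianchi2 (Gam U) x y z j k)
  have h0 := sub_T hT hC x y z 0
  have h1 := sub_T hT hC x y z 1
  have h2 := sub_T hT hC x y z 2
  have h3 := sub_T hT hC x y z 3
  simp only [cyc, curD_eq, Bf, eWy, cf_eq F, map_add, map_sub, map_mul, F.mul, hT, ker_R hT hC,
    Fin.sum_univ_four] at h h0 h1 h2 h3 ⊢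
  linear_combination h - π (Gam U 0 j k) * h0 - π (Gam U 1 j k) * h1 - π (Gam U 2 j k) * h2 -
    π (Gam U 3 j k) * h3

theorem sub_O (hS : ∀ x, π (SO F U x) = 0) (x y : Fin 4) :
    π (F.e x (SO F U y) - F.e y (SO F U x)) = 0 := by
  have h := congrArg π (F.comm x y (U O))
  have h1 := hC 2 2 x y
  have h2 : ∀ x, π (F.e x (U O)) = π (U O) * π (sg U x) := fun x => by
    have := hS x
    simp only [SO, map_sub, map_mul] at this
    linear_combination this
  rw [(cur_co U (F.dd U) x y).2.2.2.2.2.2.2.2.2] at h1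
  simp only [SO, esg, cf_eq F, map_add, map_sub, map_mul, F.mul, hT, h2, Fin.sum_univ_four] at h h1 ⊢
  linear_combination h - π (U O) * h1

set_option maxHeartbeats 1000000 in
theorem sub_B (hB : ∀ j k x y z, π (Bf U (F.dd U) j k x y z) = 0) (j k : Fin 4) :
    π (F.e 0 (Bf U (F.dd U) j k 1 2 3) - F.e 1 (Bf U (F.dd U) j k 0 2 3) +
      F.e 2 (Bf U (F.dd U) j k 0 1 3) - F.e 3 (Bf U (F.dd U) j k 0 1 2)) = 0 := by
  have h := congrArg (fun M => π (M j k)) (dd F (F.N (Gam U)) (F.N_smul (Gam U))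
    (fun y z j k => Wy U j k y z) (fun x y => by ext j k; exact Wy_anti U j k x y)
    (fun x => by ext j k; exact Wy_diag U j k x) (F.T (Gam U)) (T_anti F U))
  have hK : ∀ x y z w, π (Kc F (F.N (Gam U)) x y (fun j k => Wy U j k z w) j k) =
      π (WW U x y z w j k) := fun x y z w => by
    simp only [Kc, F.ricci, WW, map_sum, map_sub, map_mul, ker_R hT hC]
  have hd : ∀ x y z, π (d2 (F.N (Gam U)) F.c (fun y z j k => Wy U j k y z) x y z j k) = 0 :=
    fun x y z => by
      simp only [d2_eq, map_add, map_sum, map_mul, hT, hB, zero_mul, add_zero,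
        Finset.sum_const_zero]
  have hN : ∀ t x y z, π (F.N (Gam U) t (d2 (F.N (Gam U)) (F.c + F.T (Gam U))
      (fun y z j k => Wy U j k y z) x y z) j k) = π (F.e t (Bf U (F.dd U) j k x y z)) :=
    fun t x y z => by
      simp only [Fr.N_ap, ← Bf_eq, map_add, map_sum, map_sub, map_mul, hB, mul_zero, zero_mul,
        sub_zero, Finset.sum_const_zero, add_zero]
  have hW := congrArg π (WW_zero U j k)
  simp only [Pi.add_apply, Pi.sub_apply, Finset.sum_apply, Pi.smul_apply, smul_eq_mul, map_add,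
    map_sub, map_sum, map_mul, hK, hd, hN, hT, sub_T hT hC, mul_zero, zero_mul, sub_zero, add_zero,
    Finset.sum_const_zero, map_zero] at h hW ⊢
  rw [h, hW]

omit hT hC

theorem map_BT (rN rL : Ix → A) (f : A →+ B) (t j k : Fin 4) :
    f (BT rN rL t j k) = BT (fun i => f (rN i)) (fun i => f (rL i)) t j k := by
  have h : ∀ a, f (2 * a) = 2 * f a := fun a => by rw [two_mul, map_add, two_mul]
  fin_cases t <;> fin_cases j <;> fin_cases k <;> simp [BT, h]

theorem BT_zero (t j k : Fin 4) : BT (fun _ => (0 : B)) (fun _ => 0) t j k = 0 := by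
  fin_cases t <;> fin_cases j <;> fin_cases k <;> simp [BT]

theorem alt3 {P : Fin 4 → Fin 4 → Fin 4 → Prop} (c : ∀ x y z, P x y z → P y z x)
    (s : ∀ x y z, P x y z → P y x z) (d : ∀ x z, P x x z) (h0 : P 1 2 3) (h1 : P 0 2 3)
    (h2 : P 0 1 3) (h3 : P 0 1 2) (x y z : Fin 4) : P x y z := by
  fin_cases x <;> fin_cases y <;> fin_cases z <;>
    first
    | exact d _ _
    | exact c _ _ _ (d _ _)
    | exact c _ _ _ (c _ _ _ (d _ _))
    | assumption
    | exact c _ _ _ (by assumption)
    | exact c _ _ _ (c _ _ _ (by assumption))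
    | exact s _ _ _ (by assumption)
    | exact s _ _ _ (c _ _ _ (by assumption))
    | exact s _ _ _ (c _ _ _ (c _ _ _ (by assumption)))

theorem ker_Bf {dU : Fin 4 → Ix → A} (hN : ∀ i, π (resN U dU i) = 0) (hL : ∀ i, π (resL U dU i) = 0)
    (j k x y z : Fin 4) : π (Bf U dU j k x y z) = 0 := by
  have h : ∀ t, π (BT (resN U dU) (resL U dU) t j k) = 0 := fun t => by
    have := map_BT (resN U dU) (resL U dU) π.toAddMonoidHom t j k
    simp only [RingHom.toAddMonoidHom_eq_coe, AddMonoidHom.coe_coe, hN, hL, BT_zero] at this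
    exact this
  refine alt3 (P := fun x y z => π (Bf U dU j k x y z) = 0) (fun x y z h => ?_) (fun x y z h => ?_)
    (fun x z => ?_) ((congrArg π (Bf_0 U dU j k)).trans (h 0))
    ((congrArg π (Bf_1 U dU j k)).trans (h 1)) ((congrArg π (Bf_2 U dU j k)).trans (h 2))
    ((congrArg π (Bf_3 U dU j k)).trans (h 3)) x y z
  · rwa [Bf_cyc]
  · rw [Bf_swap, map_neg, h, neg_zero]
  · rw [Bf_diag, map_zero]

end Vale.Agent.P354C
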