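import Vale.Agent.P354C.Sub

/-!
The vector of defects and its symmetric hyperbolic system.
-/

namespace Vale.Agent.P354C

open Ix

/-- The independent components of co(1,3), their direction of transport, the Bianchi defects. -/
def jk : Fin 7 → Fin 4 × Fin 4 := ![(0, 0), (3, 2), (0, 2), (0, 3), (1, 1), (1, 2), (1, 3)]
def tp : Fin 7 → Fin 4 := ![1, 1, 1, 1, 0, 0, 0]
def mid : Fin 6 → Ix := ![be1, be2, rho, sig, bb1, bb2]

/-- The index set of the defects. -/
abbrev Kap : Type := (Fin 4 × Fin 4 × Fin 4) ⊕ (Fin 7 × Fin 4 × Fin 4) ⊕ Fin 4 ⊕ Fin 6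

/-- The coefficients of l and of n, and the angular matrices. -/
def kl : Kap → ℤ
  | .inl t => if t.2.2 = 1 then 1 else 0
  | .inr (.inl t) => if tp t.1 = 0 then 1 else 0
  | .inr (.inr (.inl _)) => 0
  | .inr (.inr (.inr _)) => 1
def kn : Kap → ℤ
  | .inl t => if t.2.2 = 1 then 0 else 1
  | .inr (.inl t) => if tp t.1 = 0 then 0 else 1
  | .inr (.inr (.inl _)) => 1
  | .inr (.inr (.inr _)) => 1
def M6 : Fin 2 → Fin 6 → Fin 6 → ℤ :=
  ![![![0, 0, -1, 0, 0, 0], ![0, 0, 0, -1, 0, 0], ![-1, 0, 0, 0, 1, 0], ![0, -1, 0, 0, 0, -1],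
      ![0, 0, 1, 0, 0, 0], ![0, 0, 0, -1, 0, 0]],
    ![![0, 0, 0, 1, 0, 0], ![0, 0, -1, 0, 0, 0], ![0, -1, 0, 0, 0, 1], ![1, 0, 0, 0, 1, 0],
      ![0, 0, 0, 1, 0, 0], ![0, 0, 1, 0, 0, 0]]]
def MK (a : Fin 2) : Kap → Kap → ℤ
  | .inr (.inr (.inr i)), .inr (.inr (.inr j)) => M6 a i j
  | _, _ => 0

variable {A B : Type} [CommRing A] [CommRing B] (F : Fr A) (U : Ix → A)

/-- The defects. -/
def Zd : Kap → A
  | .inl t => F.T (Gam U) t.1 t.2.1 t.2.2
  | .inr (.inl t) => curD U (F.dd U) (jk t.1).1 (jk t.1).2 t.2.1 t.2.2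
  | .inr (.inr (.inl x)) => SO F U x
  | .inr (.inr (.inr i)) => resL U (F.dd U) (mid i)

/-- The principal part of the subsidiary system. -/
def LZ (k : Kap) : A :=
  (kl k : A) * F.e 0 (Zd F U k) + (kn k : A) * F.e 1 (Zd F U k) +
    ∑ j, ((MK 0 k j : A) * F.e 2 (Zd F U j) + (MK 1 k j : A) * F.e 3 (Zd F U j))

/-- The reduced system holds, and the torsion has the zeros which follow from it. -/
structure Red : Prop where
  res : ∀ i, res U (F.dd U) i = 0
  tn : ∀ y m, m ≠ 1 → F.T (Gam U) 1 y m = 0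
  tl : ∀ y, F.T (Gam U) 0 y 1 = 0

theorem resN_nil (dU : Fin 4 → Ix → A) {i : Ix}
    (hi : cN i = 0 ∧ angN i = [] ∧ linN i = [] ∧ quadN i = []) : resN U dU i = 0 := by
  simp [resN, hi.1, hi.2.1, hi.2.2.1, hi.2.2.2, angS, linS, quadS]

theorem resL_nil (dU : Fin 4 → Ix → A) {i : Ix}
    (hi : cL i = 0 ∧ angL i = [] ∧ linL i = [] ∧ quadL i = []) : resL U dU i = 0 := by
  simp [resL, hi.1, hi.2.1, hi.2.2.1, hi.2.2.2, angS, linS, quadS]

theorem res_cases (dU : Fin 4 → Ix → A) (i : Ix) :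
    (∃ t, mid t = i) ∨ resN U dU i = 0 ∨ resL U dU i = 0 := by
  have : (∃ t, mid t = i) ∨ (cN i = 0 ∧ angN i = [] ∧ linN i = [] ∧ quadN i = []) ∨
      (cL i = 0 ∧ angL i = [] ∧ linL i = [] ∧ quadL i = []) := by
    cases i <;> decide
  exact this.imp_right (Or.imp (resN_nil U dU) (resL_nil U dU))

variable {F U}

theorem Red.N (h : Red F U) {i : Ix} (hi : cL i = 0 ∧ angL i = [] ∧ linL i = [] ∧ quadL i = []) :
    resN U (F.dd U) i = 0 := by
  simpa only [P354C.res, resL_nil U _ hi, add_zero] using h.res i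

theorem Red.L (h : Red F U) {i : Ix} (hi : cN i = 0 ∧ angN i = [] ∧ linN i = [] ∧ quadN i = []) :
    resL U (F.dd U) i = 0 := by
  simpa only [P354C.res, resN_nil U _ hi, zero_add] using h.res i

theorem Red.cur (h : Red F U) (i : Fin 7) (y : Fin 4) :
    curD U (F.dd U) (jk i).1 (jk i).2 (tp i) y = 0 := by
  obtain ⟨a, b, c, d, e, f, g⟩ := cur_res U (F.dd U)
  rw [h.N (by decide), h.N (by decide), h.N (by decide)] at a b c d
  rw [h.L (by decide), h.L (by decide), h.L (by decide)] at e f g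
  simp only [mul_zero] at a e
  fin_cases i <;> fin_cases y <;> simp [jk, tp, cur_diag, *]

theorem Red.SO (h : Red F U) : SO F U 1 = 0 := by
  have := h.N (i := O) (by decide)
  simp only [resN, cN, angN, linN, quadN, angS, linS, quadS, List.map, List.sum_cons, List.sum_nil,
    Fr.dd] at this
  simp only [P354C.SO, sg, Matrix.cons_val]
  push_cast at this
  linear_combination this

variable {π : A →+* B}

theorem cur_all (h2 : ∀ b : B, 2 * b = 0 → b = 0) {dU : Fin 4 → Ix → A} {x y : Fin 4}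
    (h : ∀ i, π (curD U dU (jk i).1 (jk i).2 x y) = 0) (j k : Fin 4) :
    π (curD U dU j k x y) = 0 := by
  obtain ⟨a, b, c, d, e, f, g, i, l, -⟩ := cur_co U dU x y
  have h0 : π (curD U dU 0 0 x y) = 0 := h 0
  have h1 : π (curD U dU 3 2 x y) = 0 := h 1
  have h3 : π (curD U dU 0 2 x y) = 0 := h 2
  have h4 : π (curD U dU 0 3 x y) = 0 := h 3
  have h5 : π (curD U dU 1 1 x y) = 0 := h 4
  have h6 : π (curD U dU 1 2 x y) = 0 := h 5
  have h7 : π (curD U dU 1 3 x y) = 0 := h 6
  have h8 : π (curD U dU 2 2 x y) = 0 := h2 _ (by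
    have := congrArg π i
    simpa [h0, h5, map_ofNat] using this)
  fin_cases j <;> fin_cases k <;> simp [*]

/-- All defects are in the kernel. -/
structure Ker (F : Fr A) (U : Ix → A) (π : A →+* B) : Prop where
  T : ∀ x y m, π (F.T (Gam U) x y m) = 0
  C : ∀ j k x y, π (curD U (F.dd U) j k x y) = 0
  S : ∀ x, π (SO F U x) = 0
  N : ∀ i, π (resN U (F.dd U) i) = 0
  L : ∀ i, π (resL U (F.dd U) i) = 0

theorem Red.ker (h : Red F U) (h2 : ∀ b : B, 2 * b = 0 → b = 0) (hZ : ∀ k, π (Zd F U k) = 0) :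
    Ker F U π := by
  have key : ∀ i, π (resN U (F.dd U) i) = 0 ∧ π (resL U (F.dd U) i) = 0 := fun i => by
    have e := congrArg π (h.res i)
    simp only [P354C.res, map_add, map_zero] at e
    rcases res_cases U (F.dd U) i with ⟨t, rfl⟩ | a | a
    · have b : π (resL U (F.dd U) (mid t)) = 0 := hZ (.inr (.inr (.inr t)))
      exact ⟨by linear_combination e - b, b⟩
    · rw [a, map_zero] at e ⊢
      exact ⟨rfl, by linear_combination e⟩
    · rw [a, map_zero] at e ⊢
      exact ⟨by linear_combination e, rfl⟩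
  exact ⟨fun x y m => hZ (.inl (x, y, m)),
    fun j k x y => cur_all h2 (fun i => hZ (.inr (.inl (i, x, y)))) j k,
    fun x => hZ (.inr (.inr (.inl x))), fun i => (key i).1, fun i => (key i).2⟩

set_option maxHeartbeats 1000000 in
theorem Red.sub (h : Red F U) (h2 : ∀ b : B, 2 * b = 0 → b = 0) (hZ : ∀ k, π (Zd F U k) = 0)
    (k : Kap) : π (LZ F U k) = 0 := by
  have K := h.ker h2 hZ
  have hB := ker_Bf K.N K.L
  rcases k with ⟨y, z, m⟩ | ⟨i, y, z⟩ | y | i
  · by_cases hm : m = 1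
    · subst hm
      have := sub_T K.T K.C 0 y z 1
      simp only [cyc, T_anti F U 0 z, h.tl, neg_zero, map_zero, add_zero] at this
      simpa [LZ, kl, kn, MK, Zd] using this
    · have := sub_T K.T K.C 1 y z m
      simp only [cyc, T_anti F U 1 z, h.tn _ _ hm, neg_zero, map_zero, add_zero] at this
      simpa [LZ, kl, kn, MK, Zd, hm] using this
  · have := sub_cur K.T K.C (jk i).1 (jk i).2 (tp i) y z
    simp only [cyc, cur_anti U (F.dd U) _ _ (tp i) z, h.cur, neg_zero, map_zero, add_zero,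
      hB] at this
    have ht : tp i = 0 ∨ tp i = 1 := (by decide : ∀ i, tp i = 0 ∨ tp i = 1) i
    rcases ht with ht | ht <;> rw [ht] at this <;> simpa [LZ, kl, kn, MK, Zd, ht] using this
  · have := sub_O K.T K.C K.S 1 y
    simp only [h.SO, map_zero, sub_zero] at this
    simpa [LZ, kl, kn, MK, Zd] using this
  · have e : ∀ x i, F.e x (resN U (F.dd U) i) = -F.e x (resL U (F.dd U) i) := fun x i => by
      rw [eq_neg_iff_add_eq_zero, ← map_add]
      exact (congrArg (F.e x) (h.res i)).trans (map_zero _)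
    have s := sub_B K.T K.C hB
    simp only [Bf_0, Bf_1, Bf_2, Bf_3, map_BT, e] at s
    have z1 : resL U (F.dd U) a1 = 0 := resL_nil _ _ (by decide)
    have z2 : resL U (F.dd U) a2 = 0 := resL_nil _ _ (by decide)
    have z3 : resL U (F.dd U) ab1 = 0 := h.L (by decide)
    have z4 : resL U (F.dd U) ab2 = 0 := h.L (by decide)
    have s1 := s 1 3
    have s2 := s 1 2
    have s3 := s 2 3
    have s4 := s 1 1
    have s5 := s 0 3
    have s6 := s 0 2
    simp [BT, z1, z2, z3, z4, map_ofNat] at s1 s2 s3 s4 s5 s6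
    fin_cases i <;>
      simp [LZ, kl, kn, MK, Zd, M6, mid, Fintype.sum_sum_type, Fin.sum_univ_six]
    · linear_combination -s1
    · linear_combination s2
    · exact h2 _ (by linear_combination s3)
    · exact h2 _ (by linear_combination s4)
    · linear_combination s5
    · linear_combination -s6

end Vale.Agent.P354C
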